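import Vale.Agent.P205.TOP.Count

/-!
Parity of the number of zeros: the step in a chart.
-/

open MeasureTheory Topology Function Manifold

open scoped ContDiff

noncomputable section

namespace Vale.Agent.P205.TOP

variable {n : ℕ}

theorem jac_congr {F G : (Fin n → ℝ) → (Fin n → ℝ)} {x : Fin n → ℝ} (h : F =ᶠ[𝓝 x] G) :
    jac F x = jac G x := by
  unfold jac pd
  have h1 : ∀ j, fderiv ℝ (fun y => F y j) x = fderiv ℝ (fun y => G y j) x := by
    intro j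
    have h2 : (fun y => F y j) =ᶠ[𝓝 x] fun y => G y j := h.mono fun y hy => congrFun hy j
    exact h2.fderiv_eq
  simp only [h1]

theorem contDiff_cut {β : (Fin n → ℝ) → ℝ} (hβ : ContDiff ℝ ∞ β) {O : Set (Fin n → ℝ)}
    (hO : IsOpen O) (h0 : ∀ᶠ x in 𝓝ˢ Oᶜ, β x = 0) {F : (Fin n → ℝ) → (Fin n → ℝ)}
    (hF : ContDiffOn ℝ ∞ F O) : ContDiff ℝ ∞ (fun x => β x • F x) := by
  rw [contDiff_iff_contDiffAt]
  intro x
  by_cases hx : x ∈ O
  · exact hβ.contDiffAt.smul (hF.contDiffAt (hO.mem_nhds hx))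
  · have h1 : ∀ᶠ y in 𝓝 x, β y = 0 := h0.filter_mono (nhds_le_nhdsSet hx)
    have h2 : (fun x => β x • F x) =ᶠ[𝓝 x] fun _ => 0 := h1.mono fun y hy => by
      simp only [hy, zero_smul]
    exact contDiffAt_const.congr_of_eventuallyEq h2

/-- **step in a chart** -/
theorem parity_chart {F G : (Fin (n + 1) → ℝ) → (Fin (n + 1) → ℝ)}
    {O K : Set (Fin (n + 1) → ℝ)} (hO : IsOpen O) (hF : ContDiffOn ℝ ∞ F O)
    (hG : ContDiffOn ℝ ∞ G O) (hK : IsCompact K) (hKO : K ⊆ O)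
    (hoff : ∀ x ∈ O, x ∉ K → G x = F x) (rF : ∀ x ∈ O, F x = 0 → (fderiv ℝ F x).det ≠ 0)
    (rG : ∀ x ∈ O, G x = 0 → (fderiv ℝ G x).det ≠ 0) :
    {x ∈ K | F x = 0}.Finite ∧ {x ∈ K | G x = 0}.Finite ∧
      Even (({x ∈ K | G x = 0}.ncard : ℤ) - ({x ∈ K | F x = 0}.ncard : ℤ)) := by
  obtain ⟨L, hL, hKL, hLO⟩ := exists_compact_between hK hO hKO
  obtain ⟨β, hβ0, hβ1, -⟩ := exists_contMDiffMap_zero_one_nhds_of_isClosed (n := ⊤)
    𝓘(ℝ, Fin (n + 1) → ℝ) hO.isClosed_compl hL.isClosed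
    (Set.disjoint_left.2 fun x hx hx' => hx (hLO hx'))
  have cβ : ContDiff ℝ ∞ β := β.contMDiff.contDiff
  set F' : (Fin (n + 1) → ℝ) → (Fin (n + 1) → ℝ) := fun x => β x • F x with hF'
  set G' : (Fin (n + 1) → ℝ) → (Fin (n + 1) → ℝ) := fun x => β x • G x with hG'
  have cF : ContDiff ℝ ∞ F' := contDiff_cut cβ hO hβ0 hF
  have cG : ContDiff ℝ ∞ G' := contDiff_cut cβ hO hβ0 hG
  have eF : ∀ x ∈ L, F' =ᶠ[𝓝 x] F := fun x hx =>
    (hβ1.filter_mono (nhds_le_nhdsSet hx)).mono fun y hy => by simp [hF', hy]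
  have eG : ∀ x ∈ L, G' =ᶠ[𝓝 x] G := fun x hx =>
    (hβ1.filter_mono (nhds_le_nhdsSet hx)).mono fun y hy => by simp [hG', hy]
  have dF : ∀ x ∈ L, F' x = 0 → jac F' x ≠ 0 := by
    intro x hx h0
    rw [jac_eq (cF.differentiable (by simp) x), (eF x hx).fderiv_eq]
    exact rF x (hLO hx) (by rw [← (eF x hx).self_of_nhds, h0])
  have dG : ∀ x ∈ L, G' x = 0 → jac G' x ≠ 0 := by
    intro x hx h0
    rw [jac_eq (cG.differentiable (by simp) x), (eG x hx).fderiv_eq]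
    exact rG x (hLO hx) (by rw [← (eG x hx).self_of_nhds, h0])
  have fF := finite_zeros cF hL dF
  have fG := finite_zeros cG hL dG
  set U : Set (Fin (n + 1) → ℝ) := interior L ∩
    (({x ∈ L | F' x = 0} \ K)ᶜ ∩ ({x ∈ L | G' x = 0} \ K)ᶜ) with hU
  have hUo : IsOpen U := isOpen_interior.inter
    (((fF.subset Set.sdiff_subset).isClosed.isOpen_compl).inter
      ((fG.subset Set.sdiff_subset).isClosed.isOpen_compl))
  have hKU : K ⊆ U := fun x hx => ⟨hKL hx, fun h => h.2 hx, fun h => h.2 hx⟩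
  obtain ⟨δ, hδ, hδU⟩ := hK.exists_cthickening_subset_open hUo hKU
  set K' := Metric.cthickening δ K with hK'
  have hK'c : IsCompact K' := hK.cthickening
  have hKK' : K ⊆ K' := Metric.self_subset_cthickening K
  have hK'L : K' ⊆ L := fun x hx => interior_subset (hδU hx).1
  have nb : ∀ x ∈ K, K' ∈ 𝓝 x := fun x hx =>
    Filter.mem_of_superset (Metric.isOpen_thickening.mem_nhds
      (Metric.self_subset_thickening hδ K hx)) (Metric.thickening_subset_cthickening δ K)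
  have zF : ∀ x ∈ K', F' x = 0 → x ∈ K := fun x hx h0 => by
    by_contra hxK
    exact (hδU hx).2.1 ⟨⟨hK'L hx, h0⟩, hxK⟩
  have zG : ∀ x ∈ K', G' x = 0 → x ∈ K := fun x hx h0 => by
    by_contra hxK
    exact (hδU hx).2.2 ⟨⟨hK'L hx, h0⟩, hxK⟩
  have sF : {x ∈ K' | F' x = 0} = {x ∈ K | F x = 0} := by
    ext x
    constructor
    · rintro ⟨h1, h2⟩
      exact ⟨zF x h1 h2, by rw [← (eF x (hK'L h1)).self_of_nhds]; exact h2⟩
    · rintro ⟨h1, h2⟩
      exact ⟨hKK' h1, by rw [(eF x (hK'L (hKK' h1))).self_of_nhds]; exact h2⟩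
  have sG : {x ∈ K' | G' x = 0} = {x ∈ K | G x = 0} := by
    ext x
    constructor
    · rintro ⟨h1, h2⟩
      exact ⟨zG x h1 h2, by rw [← (eG x (hK'L h1)).self_of_nhds]; exact h2⟩
    · rintro ⟨h1, h2⟩
      exact ⟨hKK' h1, by rw [(eG x (hK'L (hKK' h1))).self_of_nhds]; exact h2⟩
  have off : ∀ x ∉ K', G' x = F' x := by
    intro x hx
    by_cases hxO : x ∈ O
    · simp only [hF', hG', hoff x hxO fun h => hx (hKK' h)]
    · have h1 : β x = 0 := (hβ0.filter_mono (nhds_le_nhdsSet hxO)).self_of_nhds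
      simp [hF', hG', h1]
  have offd : ∀ x ∉ K', jac G' x = jac F' x := by
    intro x hx
    refine jac_congr ?_
    filter_upwards [hK'c.isClosed.isOpen_compl.mem_nhds hx] with y hy using off y hy
  have h := parity_local cF cG hK'c off offd (fun x hx => dF x (hK'L hx))
    (fun x hx => dG x (hK'L hx)) (fun x hx h0 => nb x (zF x hx h0))
    (fun x hx h0 => nb x (zG x hx h0))
  rw [sF, sG] at h
  refine ⟨?_, ?_, h⟩
  · rw [← sF]
    exact fF.subset fun x hx => ⟨hK'L hx.1, hx.2⟩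
  · rw [← sG]
    exact fG.subset fun x hx => ⟨hK'L hx.1, hx.2⟩

end Vale.Agent.P205.TOP
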