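import Vale.Agent.P205.TOP.Dens

/-!
The signed count of the regular zeros in a compact set as an integral.
-/

open MeasureTheory Topology Function

open scoped ContDiff

noncomputable section

namespace Vale.Agent.P205.TOP

variable {n : ℕ}

theorem fderiv_comp' {G : (Fin n → ℝ) → (Fin n → ℝ)} {x : Fin n → ℝ}
    (hG : DifferentiableAt ℝ G x) (j : Fin n) (v : Fin n → ℝ) :
    fderiv ℝ (fun y => G y j) x v = fderiv ℝ G x v j := by
  have h : HasFDerivAt (fun y => G y j)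
      ((ContinuousLinearMap.proj (R := ℝ) (φ := fun _ : Fin n => ℝ) j).comp (fderiv ℝ G x)) x :=
    (ContinuousLinearMap.proj (R := ℝ) (φ := fun _ : Fin n => ℝ) j).hasFDerivAt.comp x
      hG.hasFDerivAt
  rw [h.fderiv]
  rfl

theorem jac_eq {G : (Fin n → ℝ) → (Fin n → ℝ)} {x : Fin n → ℝ}
    (hG : DifferentiableAt ℝ G x) : jac G x = (fderiv ℝ G x).det := by
  have h : (fderiv ℝ G x).det = (LinearMap.toMatrix' (fderiv ℝ G x).toLinearMap).det := by
    rw [LinearMap.det_toMatrix']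
  rw [h, ← Matrix.det_transpose]
  unfold jac
  congr 1
  ext i j
  simp only [Matrix.of_apply, Matrix.transpose_apply, LinearMap.toMatrix'_apply]
  unfold pd
  rw [fderiv_comp' hG]
  rfl

/-- a regular point has a good neighbourhood -/
theorem exists_nhd {G : (Fin n → ℝ) → (Fin n → ℝ)} (hG : ContDiff ℝ ∞ G) {z : Fin n → ℝ}
    (hz : jac G z ≠ 0) {U : Set (Fin n → ℝ)} (hU : U ∈ 𝓝 z) :
    ∃ D : Set (Fin n → ℝ), IsOpen D ∧ z ∈ D ∧ D ⊆ U ∧ Set.InjOn G D ∧
      (∀ x ∈ D, 0 < jac G x * jac G z) ∧ G '' D ∈ 𝓝 (G z) := by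
  have hd : (fderiv ℝ G z).det ≠ 0 := by
    rw [← jac_eq (hG.differentiable (by simp) z)]
    exact hz
  set e := (fderiv ℝ G z).toContinuousLinearEquivOfDetNeZero hd with he
  have hs : HasStrictFDerivAt G (e : (Fin n → ℝ) →L[ℝ] (Fin n → ℝ)) z := by
    rw [he, ContinuousLinearMap.coe_toContinuousLinearEquivOfDetNeZero]
    exact hG.contDiffAt.hasStrictFDerivAt (by simp)
  set Φ := hs.toOpenPartialHomeomorph G with hΦ
  have h1 : Φ.source ∈ 𝓝 z :=
    Φ.open_source.mem_nhds (hs.mem_toOpenPartialHomeomorph_source)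
  have h2 : {x | 0 < jac G x * jac G z} ∈ 𝓝 z := by
    refine (isOpen_lt continuous_const ((continuous_jac hG).mul continuous_const)).mem_nhds ?_
    exact mul_self_pos.2 hz
  obtain ⟨D, hD, hDo, hzD⟩ := mem_nhds_iff.1 (Filter.inter_mem hU (Filter.inter_mem h1 h2))
  refine ⟨D, hDo, hzD, fun x hx => (hD hx).1, fun x hx y hy hxy => ?_,
    fun x hx => (hD hx).2.2, ?_⟩
  · exact Φ.injOn (hD hx).2.1 (hD hy).2.1 hxy
  · have h3 := hs.map_nhds_eq_of_equiv
    rw [← h3]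
    exact Filter.image_mem_map (hDo.mem_nhds hzD)

/-- the zeros in a compact set are finite in number if they are regular -/
theorem finite_zeros {G : (Fin n → ℝ) → (Fin n → ℝ)} (hG : ContDiff ℝ ∞ G)
    {K : Set (Fin n → ℝ)} (hK : IsCompact K) (hr : ∀ x ∈ K, G x = 0 → jac G x ≠ 0) :
    {x ∈ K | G x = 0}.Finite := by
  have hZ : IsCompact {x ∈ K | G x = 0} := by
    have h : {x ∈ K | G x = 0} = K ∩ G ⁻¹' {0} := rfl
    rw [h]
    exact hK.inter_right (isClosed_singleton.preimage hG.continuous)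
  refine hZ.finite ?_
  rw [isDiscrete_iff_forall_mem_exists_isOpen]
  rintro z ⟨hzK, hz0⟩
  obtain ⟨D, hDo, hzD, -, hinj, -, -⟩ := exists_nhd hG (hr z hzK hz0) Filter.univ_mem
  refine ⟨D, hDo, ?_⟩
  ext x
  constructor
  · rintro ⟨hxD, hxK, hx0⟩
    exact hinj hxD hzD (hx0.trans hz0.symm)
  · rintro rfl
    exact ⟨hzD, hzK, hz0⟩

/-- sign as an integer -/
def sg (t : ℝ) : ℤ := if 0 < t then 1 else -1

theorem sg_mul {t : ℝ} (ht : t ≠ 0) : (sg t : ℝ) * |t| = t := by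
  unfold sg
  rcases lt_or_gt_of_ne ht with h | h
  · rw [if_neg (not_lt.2 h.le), abs_of_neg h]
    push_cast
    ring
  · rw [if_pos h, abs_of_pos h]
    push_cast
    ring

theorem sg_eq {s t : ℝ} (h : 0 < s * t) : sg s = sg t := by
  unfold sg
  rcases lt_trichotomy t 0 with h1 | h1 | h1
  · have h2 : s < 0 := by
      by_contra h3
      have := mul_nonpos_of_nonneg_of_nonpos (not_lt.1 h3) h1.le
      linarith
    rw [if_neg (not_lt.2 h1.le), if_neg (not_lt.2 h2.le)]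
  · rw [h1, mul_zero] at h
    exact absurd h (lt_irrefl _)
  · have h2 : 0 < s := by
      by_contra h3
      have := mul_nonpos_of_nonpos_of_nonneg (not_lt.1 h3) h1.le
      linarith
    rw [if_pos h1, if_pos h2]

theorem even_sub_sg (t : ℝ) : Even (sg t - 1) := by
  unfold sg
  split_ifs
  · simp
  · exact ⟨-1, by norm_num⟩

/-- **signed count** -/
theorem exists_count {G : (Fin (n + 1) → ℝ) → (Fin (n + 1) → ℝ)} (hG : ContDiff ℝ ∞ G)
    {K : Set (Fin (n + 1) → ℝ)} (hK : IsCompact K) (hr : ∀ x ∈ K, G x = 0 → jac G x ≠ 0)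
    (hi : ∀ x ∈ K, G x = 0 → K ∈ 𝓝 x) :
    ∃ s : ℤ, Even (s - ({x ∈ K | G x = 0}.ncard : ℤ)) ∧ ∃ ε0 : ℝ, 0 < ε0 ∧ ∀ ρ : ℝ → ℝ,
      Continuous ρ → (∀ t, ε0 ≤ |t| → ρ t = 0) → ∫ t, ρ t = 1 → ∫ x in K, dens ρ G x = s := by
  classical
  have hfin := finite_zeros hG hK hr
  set Z : Finset (Fin (n + 1) → ℝ) := hfin.toFinset with hZ
  have memZ : ∀ x, x ∈ Z ↔ x ∈ K ∧ G x = 0 := fun x => by simp [hZ]
  obtain ⟨U, hU, hUd⟩ := hfin.t2_separation
  have hD : ∀ z : (Fin (n + 1) → ℝ), ∃ D : Set (Fin (n + 1) → ℝ), z ∈ Z →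
      IsOpen D ∧ z ∈ D ∧ D ⊆ K ∩ U z ∧ Set.InjOn G D ∧
      (∀ x ∈ D, 0 < jac G x * jac G z) ∧ G '' D ∈ 𝓝 (G z) := by
    intro z
    by_cases hz : z ∈ Z
    · have h1 := (memZ z).1 hz
      obtain ⟨D, h⟩ := exists_nhd hG (hr z h1.1 h1.2)
        (Filter.inter_mem (hi z h1.1 h1.2) ((hU z).2.mem_nhds (hU z).1))
      exact ⟨D, fun _ => h⟩
    · exact ⟨∅, fun h => absurd h hz⟩
  choose D hD using hD
  have hDd : Set.Pairwise (↑Z) (Disjoint on D) := by
    intro z hz w hw hzw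
    have h1 := hUd (by simpa [hZ] using hz) (by simpa [hZ] using hw) hzw
    exact Disjoint.mono (fun x hx => ((hD z hz).2.2.1 hx).2) (fun x hx => ((hD w hw).2.2.1 hx).2)
      h1
  -- the values away from the neighbourhoods
  have hO : IsOpen (⋃ z ∈ Z, D z) := isOpen_biUnion fun z hz => (hD z hz).1
  have hC : IsCompact (G '' (K \ ⋃ z ∈ Z, D z)) :=
    (hK.diff hO).image hG.continuous
  have h0 : (0 : Fin (n + 1) → ℝ) ∉ G '' (K \ ⋃ z ∈ Z, D z) := by
    rintro ⟨x, ⟨hxK, hx⟩, hx0⟩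
    refine hx ?_
    have hxZ : x ∈ Z := (memZ x).2 ⟨hxK, hx0⟩
    exact Set.mem_biUnion hxZ (hD x hxZ).2.1
  have hN1 : (G '' (K \ ⋃ z ∈ Z, D z))ᶜ ∈ 𝓝 (0 : Fin (n + 1) → ℝ) :=
    hC.isClosed.isOpen_compl.mem_nhds h0
  have hN2 : (⋂ z ∈ Z, G '' D z) ∈ 𝓝 (0 : Fin (n + 1) → ℝ) := by
    rw [Filter.biInter_finset_mem]
    intro z hz
    have := (hD z hz).2.2.2.2.2
    rwa [((memZ z).1 hz).2] at this
  obtain ⟨ε0, hε0, hball⟩ := Metric.mem_nhds_iff.1 (Filter.inter_mem hN1 hN2)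
  refine ⟨∑ z ∈ Z, sg (jac G z), ?_, ε0, hε0, ?_⟩
  · have h1 : {x ∈ K | G x = 0}.ncard = Z.card := by
      rw [Set.ncard_eq_toFinset_card _ hfin]
    rw [h1]
    have h2 : ∑ z ∈ Z, sg (jac G z) - (Z.card : ℤ) = ∑ z ∈ Z, (sg (jac G z) - 1) := by
      rw [Finset.sum_sub_distrib]
      simp
    rw [h2]
    exact Finset.even_sum _ fun z _ => even_sub_sg _
  · intro ρ cρ hρ0 hρ1
    have hsup : ∀ y : Fin (n + 1) → ℝ, y ∉ Metric.ball (0 : Fin (n + 1) → ℝ) ε0 →
        ∏ j, ρ (y j) = 0 := by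
      intro y hy
      rw [mem_ball_zero_iff, pi_norm_lt_iff hε0] at hy
      push Not at hy
      obtain ⟨j, hj⟩ := hy
      exact Finset.prod_eq_zero (Finset.mem_univ j) (hρ0 _ hj)
    have hint : ∀ y : Fin (n + 1) → ℝ, ∫ y : Fin (n + 1) → ℝ, ∏ j, ρ (y j) = 1 := by
      intro _
      have := integral_fintype_prod_volume_eq_prod (𝕜 := ℝ) (fun _ : Fin (n + 1) => ρ)
      rw [this]
      simp [hρ1]
    have cd := continuous_dens cρ hG
    have hsub : (⋃ z ∈ Z, D z) ⊆ K := Set.iUnion₂_subset fun z hz x hx =>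
      ((hD z hz).2.2.1 hx).1
    have hmeas : MeasurableSet (⋃ z ∈ Z, D z) := hO.measurableSet
    have e1 : ∫ x in K, dens ρ G x = ∫ x in (⋃ z ∈ Z, D z), dens ρ G x := by
      apply setIntegral_eq_of_subset_of_forall_sdiff_eq_zero hK.measurableSet hsub
      intro x hx
      have h1 : G x ∉ Metric.ball (0 : Fin (n + 1) → ℝ) ε0 := fun h =>
        (hball h).1 ⟨x, hx, rfl⟩
      unfold dens
      rw [hsup _ h1, zero_mul]
    rw [e1, integral_biUnion_finset Z (fun z hz => (hD z hz).1.measurableSet) hDd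
      (fun z hz => (cd.continuousOn.integrableOn_compact hK).mono_set fun x hx =>
        ((hD z hz).2.2.1 hx).1)]
    push_cast
    refine Finset.sum_congr rfl fun z hz => ?_
    obtain ⟨hDo, hzD, hDK, hinj, hsgn, hnb⟩ := hD z hz
    have e2 := integral_image_eq_integral_abs_det_fderiv_smul volume hDo.measurableSet
      (f' := fun x => fderiv ℝ G x)
      (fun x _ => ((hG.differentiable (by simp)) x).hasFDerivAt.hasFDerivWithinAt) hinj
      (fun y : Fin (n + 1) → ℝ => ∏ j, ρ (y j))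
    have e3 : ∫ y in G '' D z, ∏ j, ρ (y j) = 1 := by
      rw [setIntegral_eq_integral_of_forall_compl_eq_zero, hint 0]
      intro y hy
      refine hsup y fun h => hy ?_
      have h1 := (hball h).2
      rw [Set.mem_iInter₂] at h1
      exact h1 z hz
    rw [e3] at e2
    have e4 : ∫ x in D z, dens ρ G x = ∫ x in D z, (sg (jac G z) : ℝ) *
        (|(fderiv ℝ G x).det| • ∏ j, ρ (G x j)) := by
      refine setIntegral_congr_fun hDo.measurableSet fun x hx => ?_
      have h1 := hsgn x hx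
      have h2 : jac G x ≠ 0 := fun h => by
        rw [h, zero_mul] at h1
        exact lt_irrefl _ h1
      have h3 := sg_mul h2
      rw [sg_eq h1] at h3
      rw [← jac_eq (hG.differentiable (by simp) x), smul_eq_mul, ← mul_assoc, h3]
      unfold dens
      ring
    rw [e4, integral_const_mul, ← e2, mul_one]

/-- smooth densities -/
theorem exists_rho {ε : ℝ} (hε : 0 < ε) : ∃ ρ A : ℝ → ℝ, Continuous ρ ∧
    (∀ t, ε ≤ |t| → ρ t = 0) ∧ ∫ t, ρ t = 1 ∧ (∀ t, HasDerivAt A (ρ t) t) ∧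
    ContDiff ℝ ∞ A := by
  set b : ContDiffBump (0 : ℝ) := ⟨ε / 2, ε, by positivity, by linarith⟩ with hb
  have c1 : ContDiff ℝ ∞ (b.normed volume) := b.contDiff_normed
  have d1 : ∀ t, HasDerivAt (fun u => ∫ x in (0 : ℝ)..u, b.normed volume x)
      (b.normed volume t) t := fun t =>
    intervalIntegral.integral_hasDerivAt_right (c1.continuous.intervalIntegrable _ _)
      (c1.continuous.stronglyMeasurableAtFilter _ _) c1.continuous.continuousAt
  refine ⟨b.normed volume, fun u => ∫ x in (0 : ℝ)..u, b.normed volume x, c1.continuous,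
    fun t ht => ?_, b.integral_normed, d1, ?_⟩
  · by_contra h
    have h1 : t ∈ Function.support (b.normed volume) := h
    rw [b.support_normed_eq, mem_ball_zero_iff, Real.norm_eq_abs] at h1
    exact absurd h1 (not_lt.2 ht)
  · rw [contDiff_infty_iff_deriv]
    refine ⟨fun t => (d1 t).differentiableAt, ?_⟩
    have : deriv (fun u => ∫ x in (0 : ℝ)..u, b.normed volume x) = b.normed volume := by
      funext t
      exact (d1 t).deriv
    rw [this]
    exact c1

/-- **local step**, smooth functions on the whole space -/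
theorem parity_local {F G : (Fin (n + 1) → ℝ) → (Fin (n + 1) → ℝ)} (hF : ContDiff ℝ ∞ F)
    (hG : ContDiff ℝ ∞ G) {K : Set (Fin (n + 1) → ℝ)} (hK : IsCompact K)
    (hoff : ∀ x ∉ K, G x = F x) (hoffd : ∀ x ∉ K, jac G x = jac F x)
    (rF : ∀ x ∈ K, F x = 0 → jac F x ≠ 0) (rG : ∀ x ∈ K, G x = 0 → jac G x ≠ 0)
    (iF : ∀ x ∈ K, F x = 0 → K ∈ 𝓝 x) (iG : ∀ x ∈ K, G x = 0 → K ∈ 𝓝 x) :
    Even (({x ∈ K | G x = 0}.ncard : ℤ) - ({x ∈ K | F x = 0}.ncard : ℤ)) := by
  obtain ⟨s, hs, ε, hε, hi⟩ := exists_count hF hK rF iF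
  obtain ⟨s', hs', ε', hε', hi'⟩ := exists_count hG hK rG iG
  obtain ⟨ρ, A, cρ, h0, h1, hA, sA⟩ := exists_rho (lt_min hε hε')
  have e1 := hi ρ cρ (fun t ht => h0 t ((min_le_left _ _).trans ht)) h1
  have e2 := hi' ρ cρ (fun t ht => h0 t ((min_le_right _ _).trans ht)) h1
  have e3 := integral_dens_sub hA sA cρ hF hG
    (HasCompactSupport.intro hK fun x hx => by rw [hoff x hx, sub_self])
  have e4 : ∫ x in K, (dens ρ G x - dens ρ F x) = ∫ x, (dens ρ G x - dens ρ F x) := by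
    refine setIntegral_eq_integral_of_forall_compl_eq_zero fun x hx => ?_
    unfold dens
    rw [hoff x hx, hoffd x hx, sub_self]
  rw [e3, integral_sub ((continuous_dens cρ hG).continuousOn.integrableOn_compact hK)
    ((continuous_dens cρ hF).continuousOn.integrableOn_compact hK), e1, e2] at e4
  have e5 : s' = s := by
    have : (s' : ℝ) = s := by linarith
    exact_mod_cast this
  rw [e5] at hs'
  have := hs.sub hs'
  have e6 : s - ({x ∈ K | F x = 0}.ncard : ℤ) - (s - ({x ∈ K | G x = 0}.ncard : ℤ))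
      = ({x ∈ K | G x = 0}.ncard : ℤ) - ({x ∈ K | F x = 0}.ncard : ℤ) := by ring
  rwa [e6] at this

end Vale.Agent.P205.TOP
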