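import Vale.Agent.P205.TOP.Pio

/-!
Invariance of `∫ Φ(G) det DG` under compactly supported changes of `G`.
-/

open MeasureTheory

open scoped ContDiff

noncomputable section

namespace Vale.Agent.P205.TOP

variable {n : ℕ}

/-- the integral of a Jacobian determinant with one compactly supported function vanishes -/
theorem integral_det_eq_zero' (p : Fin (n + 1) → (Fin (n + 1) → ℝ) → ℝ)
    (hp : ∀ j, ContDiff ℝ ∞ (p j)) (k : Fin (n + 1)) (h0 : HasCompactSupport (p k)) :
    ∫ x, (Matrix.of fun i j => pd i (p j) x).det = 0 := by
  have h := integral_det_eq_zero (fun j => p (Equiv.swap 0 k j)) (fun j => hp _)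
    (by simpa using h0)
  have e : ∀ x, (Matrix.of fun i j => pd i (p (Equiv.swap 0 k j)) x).det
      = ((Equiv.Perm.sign (Equiv.swap 0 k) : ℤ) : ℝ) * (Matrix.of fun i j => pd i (p j) x).det := by
    intro x
    have := Matrix.det_permute' (Equiv.swap 0 k) (Matrix.of fun i j => pd i (p j) x)
    exact this
  simp only [e] at h
  rw [integral_const_mul] at h
  rcases mul_eq_zero.1 h with h1 | h1
  · exfalso
    have h2 : (Equiv.Perm.sign (Equiv.swap 0 k) : ℤ) ≠ 0 := Units.ne_zero _
    exact h2 (by exact_mod_cast h1)
  · exact h1

/-- Jacobian determinant -/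
def jac (G : (Fin n → ℝ) → (Fin n → ℝ)) (x : Fin n → ℝ) : ℝ :=
  (Matrix.of fun i j => pd i (fun y => G y j) x).det

/-- the density `Φ(G) det DG` -/
def dens (ρ : ℝ → ℝ) (G : (Fin n → ℝ) → (Fin n → ℝ)) (x : Fin n → ℝ) : ℝ :=
  (∏ j, ρ (G x j)) * jac G x

theorem contDiff_comp' {G : (Fin n → ℝ) → (Fin n → ℝ)} (hG : ContDiff ℝ ∞ G) (j : Fin n) :
    ContDiff ℝ ∞ (fun y => G y j) := contDiff_pi.1 hG j

theorem continuous_jac {G : (Fin n → ℝ) → (Fin n → ℝ)} (hG : ContDiff ℝ ∞ G) :
    Continuous (jac G) := by
  unfold jac
  refine Continuous.matrix_det ?_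
  refine continuous_matrix fun i j => ?_
  exact (contDiff_pd i (contDiff_comp' hG j)).continuous

theorem continuous_dens {ρ : ℝ → ℝ} (hρ : Continuous ρ) {G : (Fin n → ℝ) → (Fin n → ℝ)}
    (hG : ContDiff ℝ ∞ G) : Continuous (dens ρ G) := by
  unfold dens
  refine Continuous.mul ?_ (continuous_jac hG)
  exact continuous_finsetProd _ fun j _ => hρ.comp (contDiff_comp' hG j).continuous

theorem dens_eq {ρ A : ℝ → ℝ} (hA : ∀ t, HasDerivAt A (ρ t) t)
    {G : (Fin n → ℝ) → (Fin n → ℝ)} (hG : ContDiff ℝ ∞ G) (x : Fin n → ℝ) :
    dens ρ G x = (Matrix.of fun i j => pd i (fun y => A (G y j)) x).det := by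
  have e : (Matrix.of fun i j => pd i (fun y => A (G y j)) x)
      = Matrix.of fun i j => ρ (G x j) * (Matrix.of fun i j => pd i (fun y => G y j) x) i j := by
    ext i j
    simp only [Matrix.of_apply]
    have h1 := ((contDiff_comp' hG j).differentiable (by simp) x).hasFDerivAt
    have h2 := (hA (G x j)).comp_hasFDerivAt x h1
    unfold pd
    have h3 : (fun y => A (G y j)) = A ∘ fun y => G y j := rfl
    rw [h3, h2.fderiv]
    simp
  rw [e, Matrix.det_mul_row]
  rfl

/-- change of one component -/
theorem integral_dens_sub_one {ρ A : ℝ → ℝ} (hA : ∀ t, HasDerivAt A (ρ t) t)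
    (sA : ContDiff ℝ ∞ A) {F G : (Fin (n + 1) → ℝ) → (Fin (n + 1) → ℝ)} (hF : ContDiff ℝ ∞ F)
    (hG : ContDiff ℝ ∞ G) (k : Fin (n + 1)) (hk : ∀ x j, j ≠ k → G x j = F x j)
    (hc : HasCompactSupport (fun x => G x k - F x k)) :
    ∫ x, (dens ρ G x - dens ρ F x) = 0 := by
  set p : Fin (n + 1) → (Fin (n + 1) → ℝ) → ℝ := fun j x =>
    if j = k then A (G x k) - A (F x k) else A (G x j) with hp
  have cp : ∀ j, ContDiff ℝ ∞ (p j) := by
    intro j
    by_cases h : j = k
    · have e : p j = fun x => A (G x k) - A (F x k) := by
        funext x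
        simp [hp, h]
      rw [e]
      exact (sA.comp (contDiff_comp' hG k)).sub (sA.comp (contDiff_comp' hF k))
    · have e : p j = fun x => A (G x j) := by
        funext x
        simp [hp, h]
      rw [e]
      exact sA.comp (contDiff_comp' hG j)
  have hpk : p k = fun x => A (G x k) - A (F x k) := by
    funext x
    simp [hp]
  have hck : HasCompactSupport (p k) := by
    rw [hpk]
    refine hc.mono fun x hx => ?_
    rw [Function.mem_support] at hx ⊢
    intro h
    exact hx (by rw [sub_eq_zero.1 h, sub_self])
  have key : ∀ x, dens ρ G x - dens ρ F x = (Matrix.of fun i j => pd i (p j) x).det := by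
    intro x
    rw [dens_eq hA hG, dens_eq hA hF]
    set M := (Matrix.of fun i j => pd i (p j) x) with hM
    have e1 : (Matrix.of fun i j => pd i (fun y => A (G y j)) x)
        = M.updateCol k ((fun i => M i k) + fun i => pd i (fun y => A (F y k)) x) := by
      ext i j
      by_cases h : j = k
      · subst h
        rw [Matrix.updateCol_self]
        simp only [Matrix.of_apply, hM, Pi.add_apply, hpk]
        unfold pd
        rw [← _root_.add_apply, ← fderiv_fun_add]
        · simp
        · exact ((sA.comp (contDiff_comp' hG j)).sub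
            (sA.comp (contDiff_comp' hF j))).differentiable (by simp) x
        · exact (sA.comp (contDiff_comp' hF j)).differentiable (by simp) x
      · rw [Matrix.updateCol_ne h]
        have e : p j = fun x => A (G x j) := by
          funext x
          simp [hp, h]
        simp only [Matrix.of_apply, hM, e]
    have e2 : (Matrix.of fun i j => pd i (fun y => A (F y j)) x)
        = M.updateCol k (fun i => pd i (fun y => A (F y k)) x) := by
      ext i j
      by_cases h : j = k
      · subst h
        rw [Matrix.updateCol_self]
        rfl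
      · rw [Matrix.updateCol_ne h]
        have e : p j = fun x => A (F x j) := by
          funext x
          simp [hp, h, hk]
        simp only [Matrix.of_apply, hM, e]
    have e3 : M.updateCol k (fun i => M i k) = M := Matrix.updateCol_eq_self M k
    rw [e1, e2, Matrix.det_updateCol_add, e3]
    ring
  simp only [key]
  exact integral_det_eq_zero' p cp k hck

/-- invariance under compactly supported changes -/
theorem integral_dens_sub {ρ A : ℝ → ℝ} (hA : ∀ t, HasDerivAt A (ρ t) t)
    (sA : ContDiff ℝ ∞ A) (cρ : Continuous ρ) {F G : (Fin (n + 1) → ℝ) → (Fin (n + 1) → ℝ)}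
    (hF : ContDiff ℝ ∞ F) (hG : ContDiff ℝ ∞ G)
    (hc : HasCompactSupport (fun x => G x - F x)) :
    ∫ x, (dens ρ G x - dens ρ F x) = 0 := by
  classical
  -- change the components one after the other
  set H : Finset (Fin (n + 1)) → (Fin (n + 1) → ℝ) → (Fin (n + 1) → ℝ) := fun s x j =>
    if j ∈ s then G x j else F x j with hH
  have cH : ∀ s, ContDiff ℝ ∞ (H s) := by
    intro s
    refine contDiff_pi.2 fun j => ?_
    by_cases h : j ∈ s
    · have e : (fun x => H s x j) = fun x => G x j := by
        funext x
        simp [hH, h]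
      rw [e]
      exact contDiff_comp' hG j
    · have e : (fun x => H s x j) = fun x => F x j := by
        funext x
        simp [hH, h]
      rw [e]
      exact contDiff_comp' hF j
  have cc : ∀ k, HasCompactSupport (fun x => G x k - F x k) := fun k => by
    refine hc.mono fun x hx => ?_
    rw [Function.mem_support] at hx ⊢
    intro h
    exact hx (congrFun h k)
  have hoff : ∀ s x, x ∉ tsupport (fun x => G x - F x) → dens ρ (H s) x = dens ρ F x := by
    intro s x hx
    have h1 : ∀ᶠ y in nhds x, H s y = F y := by
      have h2 : (tsupport (fun x => G x - F x))ᶜ ∈ nhds x :=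
        (isClosed_tsupport _).isOpen_compl.mem_nhds hx
      filter_upwards [h2] with y hy
      have h3 : G y - F y = 0 :=
        image_eq_zero_of_notMem_tsupport (f := fun x => G x - F x) hy
      funext j
      have h4 : G y j = F y j := by
        have := congrFun h3 j
        simpa [sub_eq_zero] using this
      simp only [hH]
      split_ifs <;> simp [h4]
    have h2 : ∀ j, (fun y => H s y j) =ᶠ[nhds x] fun y => F y j := fun j =>
      h1.mono fun y hy => congrFun hy j
    unfold dens jac pd
    have h3 : ∀ j, fderiv ℝ (fun y => H s y j) x = fderiv ℝ (fun y => F y j) x := fun j =>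
      (h2 j).fderiv_eq
    have h4 : ∀ j, H s x j = F x j := fun j => (h2 j).self_of_nhds
    simp only [h3, h4]
  have hint : ∀ s s', Integrable (fun x => dens ρ (H s) x - dens ρ (H s') x) := by
    intro s s'
    refine ((continuous_dens cρ (cH s)).sub
      (continuous_dens cρ (cH s'))).integrable_of_hasCompactSupport ?_
    refine HasCompactSupport.intro hc.isCompact fun x hx => ?_
    show dens ρ (H s) x - dens ρ (H s') x = 0
    rw [hoff s x hx, hoff s' x hx, sub_self]
  have key : ∀ s, ∫ x, (dens ρ (H s) x - dens ρ (H ∅) x) = 0 := by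
    intro s
    induction s using Finset.induction_on with
    | empty => simp
    | insert k s hks ih =>
      have h1 := integral_dens_sub_one hA sA (cH s) (cH (insert k s)) k (fun x j hj => by
        simp [hH, Finset.mem_insert, hj]) (by
        have e : (fun x => H (insert k s) x k - H s x k) = fun x => G x k - F x k := by
          funext x
          simp [hH, hks]
        rw [e]
        exact cc k)
      have h2 := integral_add (hint (insert k s) s) (hint s ∅)
      rw [h1, ih, add_zero] at h2
      rw [← h2]
      congr 1
      funext x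
      ring
  have h := key Finset.univ
  have e1 : H Finset.univ = G := by
    funext x j
    simp [hH]
  have e2 : H ∅ = F := by
    funext x j
    simp [hH]
  rwa [e1, e2] at h

end Vale.Agent.P205.TOP
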