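import Mathlib

/-!
Null Lagrangian (P205, block TOP, parity): the integral of `det (∂_j A_i)` vanishes if one of the
functions `A_i` has compact support.
-/

open MeasureTheory Set Function
open scoped ContDiff

noncomputable section

namespace Vale.Agent.P205.TOP

variable {E : Type*} [NormedAddCommGroup E] [NormedSpace ℝ E]

/-- the matrix of the derivatives -/
def jac {n : ℕ} (v : Fin n → E) (A : Fin n → E → ℝ) (x : E) : Matrix (Fin n) (Fin n) ℝ :=
  Matrix.of fun i j => fderiv ℝ (A i) x (v j)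

theorem det_jac {n : ℕ} (v : Fin n → E) (A : Fin n → E → ℝ) (x : E) :
    (jac v A x).det =
      ∑ σ : Equiv.Perm (Fin n), (Equiv.Perm.sign σ : ℝ) * ∏ i, fderiv ℝ (A i) x (v (σ i)) := by
  rw [← Matrix.det_transpose, Matrix.det_apply']
  rfl

theorem symm2 {A : E → ℝ} (hA : ContDiff ℝ ∞ A) (x u w : E) :
    fderiv ℝ (fun y => fderiv ℝ A y u) x w = fderiv ℝ (fun y => fderiv ℝ A y w) x u := by
  have h1 : DifferentiableAt ℝ (fderiv ℝ A) x :=
    (hA.fderiv_right (m := ∞) (by simp)).differentiable (by simp) x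
  have h2 : ∀ u w : E, fderiv ℝ (fun y => fderiv ℝ A y u) x w = fderiv ℝ (fderiv ℝ A) x w u := by
    intro u w
    have h3 : HasFDerivAt (fun y => fderiv ℝ A y u)
        ((ContinuousLinearMap.apply ℝ ℝ u).comp (fderiv ℝ (fderiv ℝ A) x)) x :=
      (ContinuousLinearMap.apply ℝ ℝ u).hasFDerivAt.comp x h1.hasFDerivAt
    rw [h3.fderiv]
    rfl
  rw [h2, h2]
  have h4 : IsSymmSndFDerivAt ℝ A x := by
    refine (hA.contDiffAt (x := x)).isSymmSndFDerivAt ?_
    rw [minSmoothness_of_isRCLikeNormedField]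
    exact WithTop.coe_le_coe.2 le_top
  exact h4 w u

section

variable [FiniteDimensional ℝ E] [MeasurableSpace E] [BorelSpace E] (μ : Measure E)
  [μ.IsAddHaarMeasure]

theorem integral_det_jac {n : ℕ} (v : Fin n → E) (A : Fin n → E → ℝ)
    (hA : ∀ i, ContDiff ℝ ∞ (A i)) (k₀ : Fin n) (hc : HasCompactSupport (A k₀)) :
    ∫ x, (jac v A x).det ∂μ = 0 := by
  classical
  have hsm : ∀ i (w : E), ContDiff ℝ ∞ (fun y => fderiv ℝ (A i) y w) := fun i w =>
    ((hA i).fderiv_right (m := ∞) (by simp)).clm_apply contDiff_const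
  -- the products of the other factors
  let G : Equiv.Perm (Fin n) → E → ℝ := fun σ x =>
    ∏ i ∈ Finset.univ.erase k₀, fderiv ℝ (A i) x (v (σ i))
  have hG : ∀ σ, ContDiff ℝ ∞ (G σ) := fun σ => contDiff_prod fun i _ => hsm i _
  have hdet : ∀ x, (jac v A x).det =
      ∑ σ : Equiv.Perm (Fin n), (Equiv.Perm.sign σ : ℝ) *
        (G σ x * fderiv ℝ (A k₀) x (v (σ k₀))) := by
    intro x
    rw [det_jac]
    refine Finset.sum_congr rfl fun σ _ => ?_
    rw [← Finset.prod_erase_mul _ _ (Finset.mem_univ k₀)]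
  have hGc : ∀ σ, Continuous (G σ) := fun σ => (hG σ).continuous
  have hdA : ∀ w : E, HasCompactSupport (fun x => fderiv ℝ (A k₀) x w) := fun w =>
    hc.fderiv_apply ℝ w
  have hI1 : ∀ σ, Integrable (fun x => G σ x * fderiv ℝ (A k₀) x (v (σ k₀))) μ := fun σ =>
    ((hGc σ).mul (hsm k₀ _).continuous).integrable_of_hasCompactSupport (hdA _).mul_left
  have hGd : ∀ σ (w : E), Continuous (fun x => fderiv ℝ (G σ) x w) := fun σ w =>
    (((hG σ).fderiv_right (m := ∞) (by simp)).clm_apply contDiff_const).continuous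
  have hI2 : ∀ σ (w : E), Integrable (fun x => fderiv ℝ (G σ) x w * A k₀ x) μ := fun σ w =>
    ((hGd σ w).mul (hA k₀).continuous).integrable_of_hasCompactSupport hc.mul_left
  have hI3 : ∀ σ, Integrable (fun x => G σ x * A k₀ x) μ := fun σ =>
    ((hGc σ).mul (hA k₀).continuous).integrable_of_hasCompactSupport hc.mul_left
  -- integration by parts
  have hparts : ∀ σ, ∫ x, G σ x * fderiv ℝ (A k₀) x (v (σ k₀)) ∂μ =
      - ∫ x, fderiv ℝ (G σ) x (v (σ k₀)) * A k₀ x ∂μ := fun σ =>
    integral_mul_fderiv_eq_neg_fderiv_mul_of_integrable (hI2 σ _) (hI1 σ) (hI3 σ)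
      (fun x _ => (hG σ).differentiable (by simp) x)
      (fun x _ => (hA k₀).differentiable (by simp) x)
  simp_rw [hdet]
  rw [integral_finsetSum _ fun σ _ => (hI1 σ).const_mul _]
  have h1 : ∀ σ : Equiv.Perm (Fin n), ∫ x, (Equiv.Perm.sign σ : ℝ) *
      (G σ x * fderiv ℝ (A k₀) x (v (σ k₀))) ∂μ =
      - ∫ x, (Equiv.Perm.sign σ : ℝ) * (fderiv ℝ (G σ) x (v (σ k₀)) * A k₀ x) ∂μ := by
    intro σ
    rw [integral_const_mul, hparts σ, integral_const_mul]
    ring
  rw [Finset.sum_congr rfl fun σ _ => h1 σ, Finset.sum_neg_distrib, neg_eq_zero,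
    ← integral_finsetSum _ fun σ _ => (hI2 σ _).const_mul _]
  have hzero : ∀ x, ∑ σ : Equiv.Perm (Fin n), (Equiv.Perm.sign σ : ℝ) *
      (fderiv ℝ (G σ) x (v (σ k₀)) * A k₀ x) = 0 := by
    intro x
    have hd : ∀ σ : Equiv.Perm (Fin n), fderiv ℝ (G σ) x (v (σ k₀)) =
        ∑ k ∈ Finset.univ.erase k₀, (∏ j ∈ (Finset.univ.erase k₀).erase k,
          fderiv ℝ (A j) x (v (σ j))) *
          fderiv ℝ (fun y => fderiv ℝ (A k) y (v (σ k))) x (v (σ k₀)) := by
      intro σ
      have h2 := fderiv_finsetProd (𝕜 := ℝ) (u := Finset.univ.erase k₀)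
        (g := fun i y => fderiv ℝ (A i) y (v (σ i))) (x := x)
        (fun i _ => (hsm i _).differentiable (by simp) x)
      have h3 : fderiv ℝ (G σ) x = _ := h2
      rw [h3]
      simp
    simp_rw [hd, Finset.sum_mul, Finset.mul_sum]
    rw [Finset.sum_comm]
    refine Finset.sum_eq_zero fun k hk => ?_
    have hk' : k ≠ k₀ := (Finset.mem_erase.1 hk).1
    refine Finset.sum_involution (fun σ _ => σ * Equiv.swap k k₀) ?_ ?_ ?_ ?_
    · intro σ _
      have hs : (Equiv.Perm.sign (σ * Equiv.swap k k₀) : ℝ) = - (Equiv.Perm.sign σ : ℝ) := by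
        rw [Equiv.Perm.sign_mul, Equiv.Perm.sign_swap hk']
        push_cast
        ring
      have e1 : (σ * Equiv.swap k k₀) k₀ = σ k := by simp
      have e2 : (σ * Equiv.swap k k₀) k = σ k₀ := by simp
      have e3 : ∀ j ∈ (Finset.univ.erase k₀).erase k, (σ * Equiv.swap k k₀) j = σ j := by
        intro j hj
        simp only [Finset.mem_erase] at hj
        rw [Equiv.Perm.mul_apply, Equiv.swap_apply_of_ne_of_ne hj.1 hj.2.1]
      have e4 : ∏ j ∈ (Finset.univ.erase k₀).erase k,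
          fderiv ℝ (A j) x (v ((σ * Equiv.swap k k₀) j)) =
          ∏ j ∈ (Finset.univ.erase k₀).erase k, fderiv ℝ (A j) x (v (σ j)) :=
        Finset.prod_congr rfl fun j hj => by rw [e3 j hj]
      rw [hs, e4, e1, e2, symm2 (hA k) x (v (σ k₀)) (v (σ k))]
      ring
    · intro σ _ _ h
      have h2 : Equiv.swap k k₀ = 1 := by
        simpa using h
      have h3 := congrArg (fun τ : Equiv.Perm (Fin n) => τ k) h2
      simp only [Equiv.swap_apply_left, Equiv.Perm.coe_one, id_eq] at h3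
      exact hk' h3.symm
    · intro σ _
      exact Finset.mem_univ _
    · intro σ _
      rw [mul_assoc, Equiv.swap_mul_self, mul_one]
  simp_rw [hzero]
  simp

end

end Vale.Agent.P205.TOP
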