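import Vale.Agent.P205.TOP.Par0

/-!
Signed count of the zeros of a smooth map `ℝⁿ → ℝⁿ` and its invariance under a compactly
supported change of one component (P205, block TOP, parity).
-/

open MeasureTheory Set Function Filter
open scoped ContDiff Topology

noncomputable section

namespace Vale.Agent.P205.TOP

variable {n : ℕ}

/-- standard basis -/
def eb (j : Fin n) : Fin n → ℝ := Pi.single j 1

/-- components -/
def cpt (Φ : (Fin n → ℝ) → (Fin n → ℝ)) (i : Fin n) : (Fin n → ℝ) → ℝ := fun y => Φ y i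

theorem cpt_sm {Φ : (Fin n → ℝ) → (Fin n → ℝ)} (hΦ : ContDiff ℝ ∞ Φ) (i : Fin n) :
    ContDiff ℝ ∞ (cpt Φ i) := (contDiff_pi.1 hΦ) i

theorem det_fderiv_eq {Φ : (Fin n → ℝ) → (Fin n → ℝ)} (hΦ : ContDiff ℝ ∞ Φ) (x : Fin n → ℝ) :
    (fderiv ℝ Φ x).det = (jac eb (cpt Φ) x).det := by
  have h1 : (fderiv ℝ Φ x).det =
      (LinearMap.toMatrix' ((fderiv ℝ Φ x : (Fin n → ℝ) →L[ℝ] (Fin n → ℝ)) :
        (Fin n → ℝ) →ₗ[ℝ] (Fin n → ℝ))).det := by
    rw [LinearMap.det_toMatrix']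
  rw [h1]
  congr 1
  ext i j
  have h2 : DifferentiableAt ℝ Φ x := hΦ.differentiable (by simp) x
  have h3 : fderiv ℝ (cpt Φ i) x = (ContinuousLinearMap.proj i).comp (fderiv ℝ Φ x) :=
    ((ContinuousLinearMap.proj (R := ℝ) (φ := fun _ : Fin n => ℝ) i).hasFDerivAt.comp x
      h2.hasFDerivAt).fderiv
  rw [LinearMap.toMatrix'_apply]
  simp only [jac, Matrix.of_apply, h3, eb, ContinuousLinearMap.comp_apply,
    ContinuousLinearMap.proj_apply, ContinuousLinearMap.coe_coe]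

/-- local degree -/
theorem local_deg {Φ : (Fin n → ℝ) → (Fin n → ℝ)} (hΦ : ContDiff ℝ ∞ Φ) {z : Fin n → ℝ}
    (hz : Φ z = 0) (hd : (fderiv ℝ Φ z).det ≠ 0) {O : Set (Fin n → ℝ)} (hO : IsOpen O)
    (hzO : z ∈ O) :
    ∃ U ⊆ O, IsOpen U ∧ z ∈ U ∧ InjOn Φ U ∧
      (∀ x ∈ U, 0 < (fderiv ℝ Φ x).det * (fderiv ℝ Φ z).det) ∧
      ∃ ε : ℝ, 0 < ε ∧ Metric.ball 0 ε ⊆ Φ '' U := by
  have hs : HasStrictFDerivAt Φ (fderiv ℝ Φ z) z :=
    (hΦ.contDiffAt).hasStrictFDerivAt (by simp)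
  let L : (Fin n → ℝ) ≃L[ℝ] (Fin n → ℝ) := ContinuousLinearMap.toContinuousLinearEquivOfDetNeZero
    (fderiv ℝ Φ z) hd
  have hL : (L : (Fin n → ℝ) →L[ℝ] (Fin n → ℝ)) = fderiv ℝ Φ z :=
    ContinuousLinearMap.coe_toContinuousLinearEquivOfDetNeZero _ hd
  have hs' : HasStrictFDerivAt Φ (L : (Fin n → ℝ) →L[ℝ] (Fin n → ℝ)) z := by rwa [hL]
  let e := hs'.toOpenPartialHomeomorph Φ
  have he : ∀ x, e x = Φ x := fun x => rfl
  have hze : z ∈ e.source := hs'.mem_toOpenPartialHomeomorph_source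
  have hcont : Continuous fun x => (fderiv ℝ Φ x).det * (fderiv ℝ Φ z).det := by
    have h1 : Continuous fun x => (fderiv ℝ Φ x).det :=
      ContinuousLinearMap.continuous_det.comp (hΦ.continuous_fderiv (by simp))
    exact h1.mul continuous_const
  let W : Set (Fin n → ℝ) := {x | 0 < (fderiv ℝ Φ x).det * (fderiv ℝ Φ z).det}
  have hW : IsOpen W := isOpen_lt continuous_const hcont
  have hzW : z ∈ W := mul_self_pos.2 hd
  refine ⟨O ∩ (W ∩ e.source), inter_subset_left, hO.inter (hW.inter e.open_source),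
    ⟨hzO, hzW, hze⟩, ?_, fun x hx => hx.2.1, ?_⟩
  · exact e.injOn.mono fun x hx => hx.2.2
  · have h1 : IsOpen (e '' (O ∩ (W ∩ e.source))) :=
      e.isOpen_image_of_subset_source (hO.inter (hW.inter e.open_source)) fun x hx => hx.2.2
    have h2 : (0 : Fin n → ℝ) ∈ e '' (O ∩ (W ∩ e.source)) := ⟨z, ⟨hzO, hzW, hze⟩, by rw [he, hz]⟩
    obtain ⟨ε, hε, hε'⟩ := Metric.isOpen_iff.1 h1 0 h2
    exact ⟨ε, hε, hε'⟩

/-- the integral over a neighbourhood of a regular zero -/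
theorem local_int {Φ : (Fin n → ℝ) → (Fin n → ℝ)} (hΦ : ContDiff ℝ ∞ Φ) {U : Set (Fin n → ℝ)}
    (hU : IsOpen U) (hinj : InjOn Φ U) {s : ℝ} (hs : ∀ x ∈ U, |(fderiv ℝ Φ x).det| * s =
      (fderiv ℝ Φ x).det) {om : (Fin n → ℝ) → ℝ} (hom : support om ⊆ Φ '' U)
    (h1 : ∫ y, om y = 1) :
    ∫ x in U, om (Φ x) * (fderiv ℝ Φ x).det = s := by
  have h2 := integral_image_eq_integral_abs_det_fderiv_smul volume hU.measurableSet
    (fun x _ => (hΦ.differentiable (by simp) x).hasFDerivAt.hasFDerivWithinAt) hinj om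
  have h3 : ∫ y in Φ '' U, om y = 1 := by
    rw [setIntegral_eq_integral_of_forall_compl_eq_zero, h1]
    intro x hx
    by_contra h
    exact hx (hom h)
  rw [h3] at h2
  have h4 : ∫ x in U, om (Φ x) * (fderiv ℝ Φ x).det =
      ∫ x in U, (|(fderiv ℝ Φ x).det| • om (Φ x)) * s := by
    refine setIntegral_congr_fun hU.measurableSet fun x hx => ?_
    simp only [smul_eq_mul]
    rw [← hs x hx, abs_mul, abs_abs]
    have h5 : |(fderiv ℝ Φ x).det| * |s| = |(fderiv ℝ Φ x).det| := by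
      rw [← abs_of_nonneg (abs_nonneg (fderiv ℝ Φ x).det), ← abs_mul, abs_abs, hs x hx]
    rw [h5]
    ring
  rw [h4, integral_mul_const, ← h2, one_mul]

/-- the degree integral counts the zeros with signs -/
theorem count {Φ : (Fin n → ℝ) → (Fin n → ℝ)} (hΦ : ContDiff ℝ ∞ Φ) {ζ : (Fin n → ℝ) → ℝ}
    (hζ : Continuous ζ) (hc : HasCompactSupport ζ) (Z : Finset (Fin n → ℝ))
    (hZ : ∀ x ∈ tsupport ζ, Φ x = 0 → x ∈ Z) (hZ0 : ∀ z ∈ Z, Φ z = 0)
    (hreg : ∀ z ∈ Z, (fderiv ℝ Φ z).det ≠ 0) {O : Set (Fin n → ℝ)} (hO : IsOpen O)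
    (hζ1 : ∀ x ∈ O, ζ x = 1) (hZO : ∀ z ∈ Z, z ∈ O) :
    ∃ ε₀ : ℝ, 0 < ε₀ ∧ ∀ om : (Fin n → ℝ) → ℝ, Continuous om → support om ⊆ Metric.ball 0 ε₀ →
      ∫ y, om y = 1 → ∫ x, ζ x * (om (Φ x) * (fderiv ℝ Φ x).det) =
        ∑ z ∈ Z, (SignType.sign (fderiv ℝ Φ z).det : ℝ) := by
  classical
  obtain ⟨W, hW, hWd⟩ := (Z.finite_toSet).t2_separation
  have h1 : ∀ z : Fin n → ℝ, z ∈ Z → ∃ U ⊆ O ∩ W z, IsOpen U ∧ z ∈ U ∧ InjOn Φ U ∧
      (∀ x ∈ U, 0 < (fderiv ℝ Φ x).det * (fderiv ℝ Φ z).det) ∧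
      ∃ ε : ℝ, 0 < ε ∧ Metric.ball 0 ε ⊆ Φ '' U := fun z hz =>
    local_deg hΦ (hZ0 z hz) (hreg z hz) (hO.inter (hW z).2) ⟨hZO z hz, (hW z).1⟩
  choose! U hUO hUo hzU hinj hsg hε using h1
  choose! ε hε0 hεb using hε
  -- the rest of the support
  let K : Set (Fin n → ℝ) := tsupport ζ \ ⋃ z ∈ Z, U z
  have hUopen : IsOpen (⋃ z ∈ Z, U z) := isOpen_biUnion fun z hz => hUo z hz
  have hK : IsCompact K := hc.isCompact.diff hUopen
  have hKn : ∀ x ∈ K, Φ x ≠ 0 := fun x hx h => hx.2 (mem_biUnion (hZ x hx.1 h)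
    (hzU x (hZ x hx.1 h)))
  obtain ⟨c, hc0, hcK⟩ : ∃ c : ℝ, 0 < c ∧ ∀ x ∈ K, c ≤ ‖Φ x‖ := by
    rcases K.eq_empty_or_nonempty with hKe | hKne
    · exact ⟨1, one_pos, fun x hx => by rw [hKe] at hx; exact hx.elim⟩
    · obtain ⟨x₀, hx₀, hmin⟩ := hK.exists_isMinOn hKne hΦ.continuous.norm.continuousOn
      exact ⟨‖Φ x₀‖, norm_pos_iff.2 (hKn x₀ hx₀), fun x hx => hmin hx⟩
  obtain ⟨ε₁, hε₁0, hε₁⟩ : ∃ ε₁ : ℝ, 0 < ε₁ ∧ ∀ z ∈ Z, ε₁ ≤ ε z := by
    rcases Z.eq_empty_or_nonempty with hZe | hZne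
    · exact ⟨1, one_pos, fun z hz => by rw [hZe] at hz; simp at hz⟩
    · obtain ⟨z₀, hz₀, hmin⟩ := Z.exists_min_image ε hZne
      exact ⟨ε z₀, hε0 z₀ hz₀, fun z hz => hmin z hz⟩
  refine ⟨min c ε₁, lt_min hc0 hε₁0, fun om homc homs hom1 => ?_⟩
  let f : (Fin n → ℝ) → ℝ := fun x => ζ x * (om (Φ x) * (fderiv ℝ Φ x).det)
  have hfc : Continuous f := hζ.mul ((homc.comp hΦ.continuous).mul
    (ContinuousLinearMap.continuous_det.comp (hΦ.continuous_fderiv (by simp))))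
  have hfi : Integrable f volume := hfc.integrable_of_hasCompactSupport hc.mul_right
  have hf0 : ∀ x, x ∉ ⋃ z ∈ Z, U z → f x = 0 := by
    intro x hx
    by_cases hxs : x ∈ tsupport ζ
    · have h2 : c ≤ ‖Φ x‖ := hcK x ⟨hxs, hx⟩
      have h3 : om (Φ x) = 0 := by
        by_contra h
        have h4 := homs h
        rw [mem_ball_zero_iff] at h4
        have h5 := min_le_left c ε₁
        linarith
      simp only [f, h3, zero_mul, mul_zero]
    · have h2 : ζ x = 0 := image_eq_zero_of_notMem_tsupport hxs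
      simp only [f, h2, zero_mul]
  have h2 : ∫ x, f x = ∫ x in ⋃ z ∈ Z, U z, f x :=
    (setIntegral_eq_integral_of_forall_compl_eq_zero hf0).symm
  have hdis : Set.Pairwise (↑Z) (Disjoint on U) := by
    intro z hz z' hz' hne
    exact (hWd hz hz' hne).mono ((hUO z hz).trans inter_subset_right)
      ((hUO z' hz').trans inter_subset_right)
  change ∫ x, f x = _
  rw [h2, integral_biUnion_finset Z (fun z hz => (hUo z hz).measurableSet) hdis
    (fun z _ => hfi.integrableOn)]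
  refine Finset.sum_congr rfl fun z hz => ?_
  have h3 : ∫ x in U z, f x = ∫ x in U z, om (Φ x) * (fderiv ℝ Φ x).det := by
    refine setIntegral_congr_fun (hUo z hz).measurableSet fun x hx => ?_
    simp only [f, hζ1 x ((hUO z hz) hx).1, one_mul]
  rw [h3]
  refine local_int hΦ (hUo z hz) (hinj z hz) ?_ ?_ hom1
  · intro x hx
    have h4 := hsg z hz x hx
    rcases lt_or_gt_of_ne (hreg z hz) with h5 | h5
    · have h6 : (fderiv ℝ Φ x).det < 0 := by nlinarith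
      rw [sign_neg h5, abs_of_neg h6]
      simp
    · have h6 : 0 < (fderiv ℝ Φ x).det := by nlinarith
      rw [sign_pos h5, abs_of_pos h6]
      simp
  · refine homs.trans ?_
    refine (Metric.ball_subset_ball ?_).trans (hεb z hz)
    exact (min_le_right _ _).trans (hε₁ z hz)

/-- bump functions in one variable with their primitives -/
theorem exists_bump1 {ε : ℝ} (hε : 0 < ε) : ∃ a A : ℝ → ℝ, ContDiff ℝ ∞ a ∧ ContDiff ℝ ∞ A ∧
    (∀ t, HasDerivAt A (a t) t) ∧ support a ⊆ Ioo (-ε) ε ∧ ∫ t, a t = 1 := by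
  let f : ContDiffBump (0 : ℝ) := ⟨ε / 2, ε, by linarith, by linarith⟩
  have hf : ContDiff ℝ ∞ (f.normed volume) := f.contDiff_normed
  have hA : ∀ t, HasDerivAt (fun t => ∫ s in (0 : ℝ)..t, f.normed volume s)
      (f.normed volume t) t := fun t =>
    intervalIntegral.integral_hasDerivAt_right (hf.continuous.intervalIntegrable _ _)
      (hf.continuous.stronglyMeasurableAtFilter _ _)
      hf.continuous.continuousAt
  refine ⟨f.normed volume, fun t => ∫ s in (0 : ℝ)..t, f.normed volume s, hf, ?_, hA, ?_,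
    f.integral_normed⟩
  · have h1 : deriv (fun t => ∫ s in (0 : ℝ)..t, f.normed volume s) = f.normed volume :=
      funext fun t => (hA t).deriv
    rw [contDiff_infty_iff_deriv]
    exact ⟨fun t => (hA t).differentiableAt, by rw [h1]; exact hf⟩
  · rw [f.support_normed_eq, Real.ball_eq_Ioo]
    simp [f]

/-- the degree density is the Jacobian of `A ∘ Φ` -/
theorem density {Φ : (Fin n → ℝ) → (Fin n → ℝ)} (hΦ : ContDiff ℝ ∞ Φ) {a A : ℝ → ℝ}
    (hA : ∀ t, HasDerivAt A (a t) t) (x : Fin n → ℝ) :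
    (∏ i, a (Φ x i)) * (fderiv ℝ Φ x).det = (jac eb (fun i y => A (Φ y i)) x).det := by
  rw [det_fderiv_eq hΦ, ← Matrix.det_mul_column]
  congr 1
  ext i j
  simp only [Matrix.of_apply, jac]
  have h1 : HasFDerivAt (cpt Φ i) (fderiv ℝ (cpt Φ i) x) x :=
    ((cpt_sm hΦ i).differentiable (by simp) x).hasFDerivAt
  have h2 : HasFDerivAt (fun y => A (Φ y i)) (a (Φ x i) • fderiv ℝ (cpt Φ i) x) x :=
    (hA (Φ x i)).comp_hasFDerivAt x h1
  rw [h2.fderiv]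
  simp

/-- invariance of the degree integral -/
theorem invariance {Φ₀ Φ₁ : (Fin n → ℝ) → (Fin n → ℝ)} (h₀ : ContDiff ℝ ∞ Φ₀)
    (h₁ : ContDiff ℝ ∞ Φ₁) (k₀ : Fin n) (heq : ∀ i, i ≠ k₀ → ∀ x, Φ₁ x i = Φ₀ x i)
    {K : Set (Fin n → ℝ)} (hK : IsCompact K) (hoff : ∀ x, x ∉ K → Φ₁ x = Φ₀ x)
    {ζ : (Fin n → ℝ) → ℝ} (hζ : Continuous ζ) (hc : HasCompactSupport ζ) (hζ1 : ∀ x ∈ K, ζ x = 1)
    {a A : ℝ → ℝ} (ha : ContDiff ℝ ∞ a) (hAs : ContDiff ℝ ∞ A)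
    (hA : ∀ t, HasDerivAt A (a t) t) :
    ∫ x, ζ x * ((∏ i, a (Φ₁ x i)) * (fderiv ℝ Φ₁ x).det) =
      ∫ x, ζ x * ((∏ i, a (Φ₀ x i)) * (fderiv ℝ Φ₀ x).det) := by
  classical
  have hcont : ∀ {Φ : (Fin n → ℝ) → (Fin n → ℝ)}, ContDiff ℝ ∞ Φ →
      Continuous fun x => ζ x * ((∏ i, a (Φ x i)) * (fderiv ℝ Φ x).det) := by
    intro Φ hΦ
    refine hζ.mul ((continuous_finsetProd _ fun i _ =>
      ha.continuous.comp ((continuous_apply i).comp hΦ.continuous)).mul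
      (ContinuousLinearMap.continuous_det.comp (hΦ.continuous_fderiv (by simp))))
  have hint : ∀ {Φ : (Fin n → ℝ) → (Fin n → ℝ)}, ContDiff ℝ ∞ Φ →
      Integrable fun x => ζ x * ((∏ i, a (Φ x i)) * (fderiv ℝ Φ x).det) := fun hΦ =>
    (hcont hΦ).integrable_of_hasCompactSupport hc.mul_right
  rw [← sub_eq_zero, ← integral_sub (hint h₁) (hint h₀)]
  -- the functions
  let B : Fin n → (Fin n → ℝ) → ℝ := fun i =>
    if i = k₀ then fun y => A (Φ₁ y k₀) - A (Φ₀ y k₀) else fun y => A (Φ₀ y i)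
  have hsA : ∀ {Φ : (Fin n → ℝ) → (Fin n → ℝ)}, ContDiff ℝ ∞ Φ → ∀ i,
      ContDiff ℝ ∞ fun y => A (Φ y i) := fun hΦ i => hAs.comp (cpt_sm hΦ i)
  have hB : ∀ i, ContDiff ℝ ∞ (B i) := by
    intro i
    by_cases hi : i = k₀
    · simp only [B, if_pos hi]
      exact (hsA h₁ k₀).sub (hsA h₀ k₀)
    · simp only [B, if_neg hi]
      exact hsA h₀ i
  have hBc : HasCompactSupport (B k₀) := by
    refine HasCompactSupport.intro hK fun x hx => ?_
    simp only [B, if_true, hoff x hx, sub_self]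
  have hdet : ∀ x, (jac eb (fun i y => A (Φ₁ y i)) x).det =
      (jac eb B x).det + (jac eb (fun i y => A (Φ₀ y i)) x).det := by
    intro x
    let M := jac eb B x
    have hf1 : ∀ i, (fun y => A (Φ₁ y i)) = (fun y => A (Φ₀ y i)) ∨ i = k₀ := by
      intro i
      by_cases hi : i = k₀
      · exact Or.inr hi
      · left
        funext y
        rw [heq i hi y]
    have e1 : jac eb (fun i y => A (Φ₁ y i)) x =
        M.updateRow k₀ (fun j => M k₀ j + fderiv ℝ (fun y => A (Φ₀ y k₀)) x (eb j)) := by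
      ext i j
      by_cases hi : i = k₀
      · subst hi
        rw [Matrix.updateRow_self]
        simp only [M, jac, Matrix.of_apply, B, if_true]
        have h2 : (fun y => A (Φ₁ y i) - A (Φ₀ y i)) =
            (fun y => A (Φ₁ y i)) - fun y => A (Φ₀ y i) := rfl
        rw [h2, fderiv_sub ((hsA h₁ i).differentiable (by simp) x)
          ((hsA h₀ i).differentiable (by simp) x)]
        simp
      · rw [Matrix.updateRow_ne hi]
        simp only [M, jac, Matrix.of_apply, B, if_neg hi]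
        rcases hf1 i with h | h
        · rw [h]
        · exact absurd h hi
    have e2 : jac eb (fun i y => A (Φ₀ y i)) x =
        M.updateRow k₀ (fun j => fderiv ℝ (fun y => A (Φ₀ y k₀)) x (eb j)) := by
      ext i j
      by_cases hi : i = k₀
      · subst hi
        rw [Matrix.updateRow_self]
        simp only [jac, Matrix.of_apply]
      · rw [Matrix.updateRow_ne hi]
        simp only [M, jac, Matrix.of_apply, B, if_neg hi]
    have e3 : M = M.updateRow k₀ (fun j => M k₀ j) := by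
      rw [Matrix.updateRow_eq_self]
    rw [e1, e2]
    have h3 := Matrix.det_updateRow_add M k₀ (fun j => M k₀ j)
      (fun j => fderiv ℝ (fun y => A (Φ₀ y k₀)) x (eb j))
    rw [← e3] at h3
    exact h3
  have hdiff : ∀ x, ζ x * ((∏ i, a (Φ₁ x i)) * (fderiv ℝ Φ₁ x).det) -
      ζ x * ((∏ i, a (Φ₀ x i)) * (fderiv ℝ Φ₀ x).det) = (jac eb B x).det := by
    intro x
    rw [← mul_sub, density h₁ hA, density h₀ hA, hdet x, add_sub_cancel_right]
    by_cases hx : x ∈ K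
    · rw [hζ1 x hx, one_mul]
    · -- outside `K` the Jacobian vanishes
      have h2 : (jac eb B x).det = 0 := by
        refine Matrix.det_eq_zero_of_row_eq_zero k₀ fun j => ?_
        simp only [jac, Matrix.of_apply]
        have h3 : B k₀ =ᶠ[𝓝 x] fun _ => 0 := by
          filter_upwards [hK.isClosed.isOpen_compl.mem_nhds hx] with y hy
          simp only [B, if_true, hoff y hy, sub_self]
        rw [h3.fderiv_eq]
        simp
      rw [h2, mul_zero]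
  simp_rw [hdiff]
  exact integral_det_jac volume eb B hB k₀ hBc

/-- **parity**: the numbers of zeros of `Φ₀` and `Φ₁` agree modulo 2 -/
theorem step_parity {Φ₀ Φ₁ : (Fin n → ℝ) → (Fin n → ℝ)} (h₀ : ContDiff ℝ ∞ Φ₀)
    (h₁ : ContDiff ℝ ∞ Φ₁) (k₀ : Fin n) (heq : ∀ i, i ≠ k₀ → ∀ x, Φ₁ x i = Φ₀ x i)
    {K : Set (Fin n → ℝ)} (hK : IsCompact K) (hoff : ∀ x, x ∉ K → Φ₁ x = Φ₀ x)
    {ζ : (Fin n → ℝ) → ℝ} (hζ : Continuous ζ) (hc : HasCompactSupport ζ)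
    {O : Set (Fin n → ℝ)} (hO : IsOpen O) (hζ1 : ∀ x ∈ O, ζ x = 1) (hKO : K ⊆ O)
    (Z₀ Z₁ : Finset (Fin n → ℝ))
    (hZ₀ : ∀ x ∈ tsupport ζ, Φ₀ x = 0 → x ∈ Z₀) (hZ₀0 : ∀ z ∈ Z₀, Φ₀ z = 0)
    (hreg₀ : ∀ z ∈ Z₀, (fderiv ℝ Φ₀ z).det ≠ 0) (hZ₀O : ∀ z ∈ Z₀, z ∈ O)
    (hZ₁ : ∀ x ∈ tsupport ζ, Φ₁ x = 0 → x ∈ Z₁) (hZ₁0 : ∀ z ∈ Z₁, Φ₁ z = 0)
    (hreg₁ : ∀ z ∈ Z₁, (fderiv ℝ Φ₁ z).det ≠ 0) (hZ₁O : ∀ z ∈ Z₁, z ∈ O) :
    (Even Z₀.card ↔ Even Z₁.card) := by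
  obtain ⟨ε₀, hε₀, hI₀⟩ := count h₀ hζ hc Z₀ hZ₀ hZ₀0 hreg₀ hO hζ1 hZ₀O
  obtain ⟨ε₁, hε₁, hI₁⟩ := count h₁ hζ hc Z₁ hZ₁ hZ₁0 hreg₁ hO hζ1 hZ₁O
  have hε : 0 < min ε₀ ε₁ := lt_min hε₀ hε₁
  obtain ⟨a, A, ha, hAs, hA, hsup, hint⟩ := exists_bump1 hε
  let om : (Fin n → ℝ) → ℝ := fun y => ∏ i, a (y i)
  have homc : Continuous om := continuous_finsetProd _ fun i _ =>
    ha.continuous.comp (continuous_apply i)
  have hom1 : ∫ y, om y = 1 := by
    have h := integral_fintype_prod_volume_eq_pow (ι := Fin n) a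
    rw [hint, one_pow] at h
    exact h
  have homs : support om ⊆ Metric.ball 0 (min ε₀ ε₁) := by
    intro y hy
    rw [mem_ball_zero_iff, pi_norm_lt_iff hε]
    intro i
    have h1 : a (y i) ≠ 0 := fun h => hy (Finset.prod_eq_zero (Finset.mem_univ i) h)
    have h2 := hsup h1
    rw [Real.norm_eq_abs, abs_lt]
    exact h2
  have e₀ := hI₀ om homc (homs.trans (Metric.ball_subset_ball (min_le_left _ _))) hom1
  have e₁ := hI₁ om homc (homs.trans (Metric.ball_subset_ball (min_le_right _ _))) hom1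
  have e := invariance h₀ h₁ k₀ heq hK hoff hζ hc (fun x hx => hζ1 x (hKO hx)) ha hAs hA
  have e' : ∑ z ∈ Z₁, (SignType.sign (fderiv ℝ Φ₁ z).det : ℝ) =
      ∑ z ∈ Z₀, (SignType.sign (fderiv ℝ Φ₀ z).det : ℝ) := by
    rw [← e₀, ← e₁]
    exact e
  -- parity of a sum of signs
  have key : ∀ (Z : Finset (Fin n → ℝ)) (s : (Fin n → ℝ) → ℤ), (∀ z ∈ Z, s z = 1 ∨ s z = -1) →
      Even (∑ z ∈ Z, s z + Z.card) := by
    intro Z s hs
    have h1 : (∑ z ∈ Z, s z + (Z.card : ℤ)) = ∑ z ∈ Z, (s z + 1) := by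
      rw [Finset.sum_add_distrib]
      simp
    rw [h1]
    refine Finset.even_sum _ fun z hz => ?_
    rcases hs z hz with h | h <;> rw [h] <;> decide
  have hs : ∀ (Φ : (Fin n → ℝ) → (Fin n → ℝ)) (Z : Finset (Fin n → ℝ)),
      (∀ z ∈ Z, (fderiv ℝ Φ z).det ≠ 0) → ∀ z ∈ Z,
      ((SignType.sign (fderiv ℝ Φ z).det : SignType) : ℤ) = 1 ∨
        ((SignType.sign (fderiv ℝ Φ z).det : SignType) : ℤ) = -1 := by
    intro Φ Z hreg z hz
    rcases lt_or_gt_of_ne (hreg z hz) with h | h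
    · right; rw [sign_neg h]; rfl
    · left; rw [sign_pos h]; rfl
  have k₀' := key Z₀ _ (hs Φ₀ Z₀ hreg₀)
  have k₁' := key Z₁ _ (hs Φ₁ Z₁ hreg₁)
  have e'' : ∑ z ∈ Z₁, ((SignType.sign (fderiv ℝ Φ₁ z).det : SignType) : ℤ) =
      ∑ z ∈ Z₀, ((SignType.sign (fderiv ℝ Φ₀ z).det : SignType) : ℤ) := by
    have h1 : ((∑ z ∈ Z₁, ((SignType.sign (fderiv ℝ Φ₁ z).det : SignType) : ℤ) : ℤ) : ℝ) =
        ((∑ z ∈ Z₀, ((SignType.sign (fderiv ℝ Φ₀ z).det : SignType) : ℤ) : ℤ) : ℝ) := by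
      push_cast
      simpa using e'
    exact_mod_cast h1
  rw [e''] at k₁'
  have h5 : Even ((Z₀.card : ℤ)) ↔ Even ((Z₁.card : ℤ)) := by
    rw [Int.even_add] at k₀' k₁'
    exact k₀'.symm.trans k₁'
  rwa [Int.even_coe_nat, Int.even_coe_nat] at h5

end Vale.Agent.P205.TOP
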