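import Mathlib

/-!
Integrals of Jacobian determinants: `∫ det (∇p_0, …, ∇p_n) = 0` when `p_0` has compact support.
-/

open MeasureTheory

open scoped ContDiff

noncomputable section

namespace Vale.Agent.P205.TOP

variable {n : ℕ}

/-- partial derivative -/
def pd (i : Fin n) (p : (Fin n → ℝ) → ℝ) (x : Fin n → ℝ) : ℝ :=
  fderiv ℝ p x (Pi.single i 1)

theorem contDiff_pd (i : Fin n) {p : (Fin n → ℝ) → ℝ} (hp : ContDiff ℝ ∞ p) :
    ContDiff ℝ ∞ (pd i p) := by
  unfold pd
  exact (hp.fderiv_right (m := ∞) (by simp)).clm_apply contDiff_const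

theorem pd_symm (i j : Fin n) {p : (Fin n → ℝ) → ℝ} (hp : ContDiff ℝ ∞ p) :
    pd i (pd j p) = pd j (pd i p) := by
  funext x
  have h1 : ∀ i : Fin n, fderiv ℝ (pd i p) x = (fderiv ℝ (fderiv ℝ p) x).flip (Pi.single i 1) := by
    intro i
    unfold pd
    have hd : DifferentiableAt ℝ (fderiv ℝ p) x :=
      ((hp.fderiv_right (m := ∞) (by simp)).differentiable (by simp)) x
    rw [fderiv_clm_apply hd (differentiableAt_const _)]
    simp
  have hs : IsSymmSndFDerivAt ℝ p x :=
    (hp.contDiffAt).isSymmSndFDerivAt (by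
      simp only [minSmoothness_of_isRCLikeNormedField]
      exact WithTop.coe_le_coe.2 (le_top : (2 : ℕ∞) ≤ ⊤))
  show fderiv ℝ (pd j p) x (Pi.single i 1) = fderiv ℝ (pd i p) x (Pi.single j 1)
  rw [h1, h1]
  simp only [ContinuousLinearMap.flip_apply]
  exact hs _ _

theorem hasCompactSupport_pd (i : Fin n) {p : (Fin n → ℝ) → ℝ} (hp : HasCompactSupport p) :
    HasCompactSupport (pd i p) := by
  unfold pd
  exact hp.fderiv_apply (𝕜 := ℝ) _

/-- integration by parts -/
theorem integral_pd_mul (i : Fin n) {u q : (Fin n → ℝ) → ℝ} (hu : ContDiff ℝ ∞ u)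
    (hc : HasCompactSupport u) (hq : ContDiff ℝ ∞ q) :
    ∫ x, pd i u x * q x = - ∫ x, u x * pd i q x := by
  have c1 : Continuous (pd i u) := (contDiff_pd i hu).continuous
  have c2 : Continuous (pd i q) := (contDiff_pd i hq).continuous
  have h1 : Integrable (fun x => pd i u x * q x) :=
    (c1.mul hq.continuous).integrable_of_hasCompactSupport ((hasCompactSupport_pd i hc).mul_right)
  have h2 : Integrable (fun x => u x * pd i q x) :=
    (hu.continuous.mul c2).integrable_of_hasCompactSupport (hc.mul_right)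
  have h3 : Integrable (fun x => u x * q x) :=
    (hu.continuous.mul hq.continuous).integrable_of_hasCompactSupport (hc.mul_right)
  have h := integral_mul_fderiv_eq_neg_fderiv_mul_of_integrable (μ := volume) (𝕜 := ℝ)
    (f := u) (g := q) (v := Pi.single i 1) h1 h2 h3
    (fun x _ => (hu.differentiable (by simp)) x) (fun x _ => (hq.differentiable (by simp)) x)
  unfold pd
  linarith

theorem sum_sign_eq_zero (T : Equiv.Perm (Fin (n + 1)) → ℝ) (k : Fin n)
    (h : ∀ σ, T (σ * Equiv.swap 0 k.succ) = T σ) :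
    ∑ σ, ((Equiv.Perm.sign σ : ℤ) : ℝ) * T σ = 0 := by
  have h1 := Equiv.sum_comp (Equiv.mulRight (Equiv.swap (0 : Fin (n + 1)) k.succ))
    (fun σ => ((Equiv.Perm.sign σ : ℤ) : ℝ) * T σ)
  have h2 : ∀ σ : Equiv.Perm (Fin (n + 1)),
      ((Equiv.Perm.sign ((Equiv.mulRight (Equiv.swap (0 : Fin (n + 1)) k.succ)) σ) : ℤ) : ℝ)
        * T ((Equiv.mulRight (Equiv.swap (0 : Fin (n + 1)) k.succ)) σ)
      = - (((Equiv.Perm.sign σ : ℤ) : ℝ) * T σ) := by
    intro σ
    rw [Equiv.coe_mulRight, h, Equiv.Perm.sign_mul, Equiv.Perm.sign_swap (Fin.succ_ne_zero k).symm]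
    push_cast
    ring
  simp only [h2, Finset.sum_neg_distrib] at h1
  linarith

/-- the integral of a Jacobian determinant with one compactly supported function vanishes -/
theorem integral_det_eq_zero (p : Fin (n + 1) → (Fin (n + 1) → ℝ) → ℝ)
    (hp : ∀ j, ContDiff ℝ ∞ (p j)) (h0 : HasCompactSupport (p 0)) :
    ∫ x, (Matrix.of fun i j => pd i (p j) x).det = 0 := by
  set Q : Equiv.Perm (Fin (n + 1)) → (Fin (n + 1) → ℝ) → ℝ :=
    fun σ x => ∏ j : Fin n, pd (σ j.succ) (p j.succ) x with hQ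
  have cQ : ∀ σ, ContDiff ℝ ∞ (Q σ) := fun σ =>
    contDiff_prod fun j _ => contDiff_pd _ (hp _)
  have e1 : ∀ x, (Matrix.of fun i j => pd i (p j) x).det
      = ∑ σ : Equiv.Perm (Fin (n + 1)), ((Equiv.Perm.sign σ : ℤ) : ℝ)
        * (pd (σ 0) (p 0) x * Q σ x) := by
    intro x
    rw [Matrix.det_apply']
    refine Finset.sum_congr rfl fun σ _ => ?_
    rw [Fin.prod_univ_succ]
    simp [hQ]
  have i1 : ∀ σ, Integrable (fun x => ((Equiv.Perm.sign σ : ℤ) : ℝ)
        * (pd (σ 0) (p 0) x * Q σ x)) := fun σ =>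
    (((contDiff_pd _ (hp 0)).continuous.mul (cQ σ).continuous).integrable_of_hasCompactSupport
      ((hasCompactSupport_pd _ h0).mul_right)).const_mul _
  have i2 : ∀ σ, Integrable (fun x => ((Equiv.Perm.sign σ : ℤ) : ℝ)
        * (p 0 x * pd (σ 0) (Q σ) x)) := fun σ =>
    (((hp 0).continuous.mul (contDiff_pd _ (cQ σ)).continuous).integrable_of_hasCompactSupport
      (h0.mul_right)).const_mul _
  have e2 : ∀ σ x, pd (σ 0) (Q σ) x = ∑ k : Fin n, (∏ j ∈ Finset.univ.erase k,
      pd (σ j.succ) (p j.succ) x) * pd (σ 0) (pd (σ k.succ) (p k.succ)) x := by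
    intro σ x
    have h := HasFDerivAt.finsetProd (u := Finset.univ) (x := x)
      (g := fun (j : Fin n) x => pd (σ j.succ) (p j.succ) x)
      (g' := fun j => fderiv ℝ (pd (σ j.succ) (p j.succ)) x)
      (fun j _ => ((contDiff_pd _ (hp _)).differentiable (by simp) x).hasFDerivAt)
    show fderiv ℝ (Q σ) x _ = _
    rw [h.fderiv]
    simp [pd]
  have e3 : ∀ x, ∑ σ : Equiv.Perm (Fin (n + 1)), ((Equiv.Perm.sign σ : ℤ) : ℝ)
        * pd (σ 0) (Q σ) x = 0 := by
    intro x
    simp only [e2, Finset.mul_sum]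
    rw [Finset.sum_comm]
    refine Finset.sum_eq_zero fun k _ => ?_
    refine sum_sign_eq_zero (fun σ => (∏ j ∈ Finset.univ.erase k,
      pd (σ j.succ) (p j.succ) x) * pd (σ 0) (pd (σ k.succ) (p k.succ)) x) k fun σ => ?_
    have h1 : (σ * Equiv.swap 0 k.succ) 0 = σ k.succ := by simp
    have h2 : (σ * Equiv.swap 0 k.succ) k.succ = σ 0 := by simp
    have h3 : ∀ j ∈ Finset.univ.erase k, pd ((σ * Equiv.swap 0 k.succ) j.succ) (p j.succ) x
        = pd (σ j.succ) (p j.succ) x := by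
      intro j hj
      have hjk : j ≠ k := Finset.ne_of_mem_erase hj
      have : (Equiv.swap (0 : Fin (n + 1)) k.succ) j.succ = j.succ :=
        Equiv.swap_apply_of_ne_of_ne (Fin.succ_ne_zero j)
          (fun h => hjk (Fin.succ_injective _ h))
      rw [Equiv.Perm.mul_apply, this]
    simp only [h1, h2]
    rw [Finset.prod_congr rfl h3, pd_symm _ _ (hp _)]
  calc ∫ x, (Matrix.of fun i j => pd i (p j) x).det
      = ∑ σ : Equiv.Perm (Fin (n + 1)), ∫ x, ((Equiv.Perm.sign σ : ℤ) : ℝ)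
        * (pd (σ 0) (p 0) x * Q σ x) := by
        simp only [e1]
        exact integral_finsetSum _ fun σ _ => i1 σ
    _ = ∑ σ : Equiv.Perm (Fin (n + 1)), - ∫ x, ((Equiv.Perm.sign σ : ℤ) : ℝ)
        * (p 0 x * pd (σ 0) (Q σ) x) := by
        refine Finset.sum_congr rfl fun σ _ => ?_
        rw [integral_const_mul, integral_const_mul, integral_pd_mul _ (hp 0) h0 (cQ σ)]
        ring
    _ = - ∫ x, p 0 x * ∑ σ : Equiv.Perm (Fin (n + 1)), ((Equiv.Perm.sign σ : ℤ) : ℝ)
        * pd (σ 0) (Q σ) x := by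
        rw [Finset.sum_neg_distrib, ← integral_finsetSum _ fun σ _ => i2 σ]
        congr 1
        refine integral_congr_ae (Filter.Eventually.of_forall fun x => ?_)
        simp only [Finset.mul_sum]
        refine Finset.sum_congr rfl fun σ _ => ?_
        ring
    _ = 0 := by simp [e3]

end Vale.Agent.P205.TOP
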