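import Mathlib

/-!
The divergence identity behind the degree (P205, block TOP, parity).

For `a : ℝⁿ → ℝⁿ` smooth, `v` fixed, `C i = det (∂_1 a, …, v (place i), …, ∂_n a)`:
`∑ ∂_i C_i = 0` and `∑ ∂_i (H ∘ a) C_i = det Da * (∂_v H) ∘ a`.
-/

open MeasureTheory
open scoped ContDiff

noncomputable section

namespace Vale.Agent.P205.TOP

variable {n : ℕ}

/-- the determinant as a continuous multilinear function of the columns -/
def detM (n : ℕ) : ContinuousMultilinearMap ℝ (fun _ : Fin n => (Fin n → ℝ)) ℝ :=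
  { (Matrix.detRowAlternating (n := Fin n) (R := ℝ)).toMultilinearMap with
    cont := by
      have h : Continuous (fun M : Matrix (Fin n) (Fin n) ℝ => M.det) :=
        continuous_id.matrix_det
      exact h }

theorem detM_apply (c : Fin n → Fin n → ℝ) : detM n c = Matrix.det (Matrix.of c) := rfl

/-- columns of the derivative -/
def cl (a : (Fin n → ℝ) → (Fin n → ℝ)) (x : Fin n → ℝ) (k : Fin n) : Fin n → ℝ :=
  fderiv ℝ a x (Pi.single k 1)

/-- Jacobian determinant -/
def jd (a : (Fin n → ℝ) → (Fin n → ℝ)) (x : Fin n → ℝ) : ℝ := detM n (cl a x)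

/-- cofactor field -/
def cof (a : (Fin n → ℝ) → (Fin n → ℝ)) (v : Fin n → ℝ) (i : Fin n) (x : Fin n → ℝ) : ℝ :=
  detM n (Function.update (cl a x) i v)

theorem jd_eq (a : (Fin n → ℝ) → (Fin n → ℝ)) (x : Fin n → ℝ) :
    jd a x = (fderiv ℝ a x).det := by
  rw [ContinuousLinearMap.det, ← LinearMap.det_toMatrix', jd, detM_apply, ← Matrix.det_transpose]
  congr 1

theorem contDiff_cl {a : (Fin n → ℝ) → (Fin n → ℝ)} (ha : ContDiff ℝ ∞ a) (k : Fin n) :
    ContDiff ℝ ∞ (fun x => cl a x k) := by
  unfold cl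
  exact (ha.fderiv_right (m := ∞) (by simp)).clm_apply contDiff_const

theorem contDiff_cl' {a : (Fin n → ℝ) → (Fin n → ℝ)} (ha : ContDiff ℝ ∞ a) :
    ContDiff ℝ ∞ (cl a) := contDiff_pi.2 fun k => contDiff_cl ha k

theorem contDiff_detM : ContDiff ℝ ∞ (detM n) := (detM n).contDiff

theorem contDiff_jd {a : (Fin n → ℝ) → (Fin n → ℝ)} (ha : ContDiff ℝ ∞ a) :
    ContDiff ℝ ∞ (jd a) := contDiff_detM.comp (contDiff_cl' ha)

theorem contDiff_upd {a : (Fin n → ℝ) → (Fin n → ℝ)} (ha : ContDiff ℝ ∞ a) (v : Fin n → ℝ)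
    (i : Fin n) : ContDiff ℝ ∞ (fun x => Function.update (cl a x) i v) := by
  refine contDiff_pi.2 fun k => ?_
  by_cases h : k = i
  · subst h
    simp only [Function.update_self]
    exact contDiff_const
  · simp only [Function.update_of_ne h]
    exact contDiff_cl ha k

theorem contDiff_cof {a : (Fin n → ℝ) → (Fin n → ℝ)} (ha : ContDiff ℝ ∞ a) (v : Fin n → ℝ)
    (i : Fin n) : ContDiff ℝ ∞ (cof a v i) := contDiff_detM.comp (contDiff_upd ha v i)

/-- second derivatives -/
def sd (a : (Fin n → ℝ) → (Fin n → ℝ)) (x : Fin n → ℝ) (i k : Fin n) : Fin n → ℝ :=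
  fderiv ℝ (fderiv ℝ a) x (Pi.single i 1) (Pi.single k 1)

theorem sd_symm {a : (Fin n → ℝ) → (Fin n → ℝ)} (ha : ContDiff ℝ ∞ a) (x : Fin n → ℝ)
    (i k : Fin n) : sd a x i k = sd a x k i := by
  have h : IsSymmSndFDerivAt ℝ a x := by
    apply ContDiffAt.isSymmSndFDerivAt (n := ∞) ha.contDiffAt
    simp only [minSmoothness_of_isRCLikeNormedField]
    exact WithTop.coe_le_coe.2 le_top
  exact h _ _

theorem hasFDerivAt_cl {a : (Fin n → ℝ) → (Fin n → ℝ)} (ha : ContDiff ℝ ∞ a)
    (x : Fin n → ℝ) (k : Fin n) :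
    HasFDerivAt (fun y => cl a y k)
      ((fderiv ℝ (fderiv ℝ a) x).flip (Pi.single k 1)) x := by
  have h1 : HasFDerivAt (fderiv ℝ a) (fderiv ℝ (fderiv ℝ a) x) x :=
    ((ha.fderiv_right (m := ∞) (by simp)).differentiable (by simp) x).hasFDerivAt
  have h2 := h1.clm_apply (hasFDerivAt_const (Pi.single k (1 : ℝ) : Fin n → ℝ) x)
  refine h2.congr_fderiv ?_
  ext w j
  simp

theorem fderiv_cof {a : (Fin n → ℝ) → (Fin n → ℝ)} (ha : ContDiff ℝ ∞ a) (v x : Fin n → ℝ)
    (i : Fin n) (w : Fin n → ℝ) :
    fderiv ℝ (cof a v i) x w = ∑ k, if k = i then 0 else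
      detM n (Function.update (Function.update (cl a x) i v) k
        (fderiv ℝ (fderiv ℝ a) x w (Pi.single k 1))) := by
  classical
  have h1 : HasFDerivAt (fun y => Function.update (cl a y) i v)
      (ContinuousLinearMap.pi fun k => if k = i then 0 else
        (fderiv ℝ (fderiv ℝ a) x).flip (Pi.single k 1)) x := by
    rw [hasFDerivAt_pi]
    intro k
    by_cases h : k = i
    · subst h
      simp only [Function.update_self, if_true]
      exact hasFDerivAt_const v x
    · simp only [Function.update_of_ne h, if_neg h]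
      exact hasFDerivAt_cl ha x k
  have h2 : HasFDerivAt (cof a v i) _ x :=
    ((detM n).hasFDerivAt (x := Function.update (cl a x) i v)).comp x h1
  rw [h2.fderiv]
  rw [ContinuousLinearMap.comp_apply, ContinuousMultilinearMap.linearDeriv_apply]
  refine Finset.sum_congr rfl fun k _ => ?_
  by_cases h : k = i
  · subst h
    simp only [ContinuousLinearMap.coe_pi', if_true]
    exact (detM n).map_coord_zero k (by simp)
  · simp [h]

/-- **Piola identity** -/
theorem piola {a : (Fin n → ℝ) → (Fin n → ℝ)} (ha : ContDiff ℝ ∞ a) (v x : Fin n → ℝ) :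
    ∑ i, fderiv ℝ (cof a v i) x (Pi.single i 1) = 0 := by
  classical
  set T : Fin n → Fin n → ℝ := fun i k => if k = i then 0 else
      detM n (Function.update (Function.update (cl a x) i v) k (sd a x i k)) with hT
  have h1 : ∑ i, fderiv ℝ (cof a v i) x (Pi.single i 1) = ∑ i, ∑ k, T i k := by
    refine Finset.sum_congr rfl fun i _ => ?_
    rw [fderiv_cof ha]
    rfl
  have h2 : ∀ i k, T i k = - T k i := by
    intro i k
    by_cases h : k = i
    · subst h; simp [hT]
    · have h' : i ≠ k := fun e => h e.symm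
      simp only [hT, if_neg h, if_neg h']
      rw [sd_symm ha x i k]
      set m : Fin n → Fin n → ℝ :=
        Function.update (Function.update (cl a x) k v) i (sd a x k i) with hm
      have e : Function.update (Function.update (cl a x) i v) k (sd a x k i)
          = m ∘ Equiv.swap i k := by
        funext l
        simp only [Function.comp_apply, hm]
        by_cases h1 : l = k
        · subst h1
          rw [Equiv.swap_apply_right, Function.update_self, Function.update_self]
        · by_cases h2 : l = i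
          · subst h2
            rw [Equiv.swap_apply_left, Function.update_of_ne h', Function.update_self,
              Function.update_of_ne h, Function.update_self]
          · rw [Equiv.swap_apply_of_ne_of_ne h2 h1, Function.update_of_ne h1,
              Function.update_of_ne h2, Function.update_of_ne h2, Function.update_of_ne h1]
      rw [e]
      exact (Matrix.detRowAlternating (n := Fin n) (R := ℝ)).map_swap m h'
  rw [h1]
  have h3 : ∑ i, ∑ k, T i k = - ∑ i, ∑ k, T i k := by
    calc ∑ i, ∑ k, T i k = ∑ i, ∑ k, - T k i :=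
          Finset.sum_congr rfl fun i _ => Finset.sum_congr rfl fun k _ => h2 i k
      _ = - ∑ i, ∑ k, T k i := by simp only [Finset.sum_neg_distrib]
      _ = - ∑ i, ∑ k, T i k := by rw [Finset.sum_comm]
  linarith

/-- Cramer -/
theorem cramer_sum (a : (Fin n → ℝ) → (Fin n → ℝ)) (v x : Fin n → ℝ) :
    ∑ i, cof a v i x • cl a x i = jd a x • v := by
  have h := Matrix.mulVec_cramer (Matrix.of (cl a x)).transpose v
  rw [Matrix.det_transpose] at h
  have e : jd a x • v = (Matrix.of (cl a x)).det • v := rfl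
  rw [e, ← h]
  funext j
  rw [Matrix.mulVec, dotProduct, Finset.sum_apply]
  refine Finset.sum_congr rfl fun i _ => ?_
  rw [Matrix.cramer_transpose_apply, Matrix.transpose_apply, Pi.smul_apply, smul_eq_mul,
    mul_comm]
  rfl

theorem fderiv_comp_cl {a : (Fin n → ℝ) → (Fin n → ℝ)} (ha : ContDiff ℝ ∞ a)
    {H : (Fin n → ℝ) → ℝ} (hH : ContDiff ℝ ∞ H) (x : Fin n → ℝ) (i : Fin n) :
    fderiv ℝ (fun y => H (a y)) x (Pi.single i 1) = fderiv ℝ H (a x) (cl a x i) := by
  have h1 : HasFDerivAt a (fderiv ℝ a x) x := (ha.differentiable (by simp) x).hasFDerivAt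
  have h2 : HasFDerivAt H (fderiv ℝ H (a x)) (a x) :=
    (hH.differentiable (by simp) (a x)).hasFDerivAt
  have h3 : HasFDerivAt (fun y => H (a y)) ((fderiv ℝ H (a x)).comp (fderiv ℝ a x)) x :=
    h2.comp x h1
  rw [h3.fderiv]
  rfl

/-- `∑ ∂_i ((H ∘ a) C_i) = det Da * (∂_v H) ∘ a` -/
theorem div_eq {a : (Fin n → ℝ) → (Fin n → ℝ)} (ha : ContDiff ℝ ∞ a)
    {H : (Fin n → ℝ) → ℝ} (hH : ContDiff ℝ ∞ H) (v x : Fin n → ℝ) :
    ∑ i, fderiv ℝ (fun y => H (a y) * cof a v i y) x (Pi.single i 1)
      = jd a x * fderiv ℝ H (a x) v := by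
  have h1 : ∀ i, fderiv ℝ (fun y => H (a y) * cof a v i y) x (Pi.single i 1)
      = H (a x) * fderiv ℝ (cof a v i) x (Pi.single i 1)
        + cof a v i x * fderiv ℝ H (a x) (cl a x i) := by
    intro i
    have hHa : DifferentiableAt ℝ (fun y => H (a y)) x :=
      (hH.comp ha).differentiable (by simp) x
    have hC : DifferentiableAt ℝ (cof a v i) x := (contDiff_cof ha v i).differentiable (by simp) x
    rw [fderiv_fun_mul hHa hC]
    simp only [add_apply, smul_apply, smul_eq_mul]
    rw [fderiv_comp_cl ha hH]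
  simp only [h1, Finset.sum_add_distrib, ← Finset.mul_sum]
  rw [piola ha, mul_zero, zero_add]
  have h2 : ∑ i, cof a v i x * fderiv ℝ H (a x) (cl a x i)
      = fderiv ℝ H (a x) (∑ i, cof a v i x • cl a x i) := by
    rw [map_sum]
    refine Finset.sum_congr rfl fun i _ => ?_
    rw [map_smul, smul_eq_mul]
  rw [h2, cramer_sum, map_smul, smul_eq_mul]

/-- integral of a derivative of a function with compact support -/
theorem integral_fderiv_zero {u : (Fin n → ℝ) → ℝ} (hu : ContDiff ℝ ∞ u)
    (hc : HasCompactSupport u) (w : Fin n → ℝ) : ∫ x, fderiv ℝ u x w = 0 := by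
  have h1 : Continuous (fun x => fderiv ℝ u x w) :=
    ((hu.continuous_fderiv (by simp)).clm_apply continuous_const)
  have h2 : HasCompactSupport (fun x => fderiv ℝ u x w) :=
    (hc.fderiv (𝕜 := ℝ)).mono' (fun x hx => by
      apply subset_tsupport
      intro h0
      apply hx
      simp [h0])
  have key := integral_bilinear_hasLineDerivAt_right_eq_neg_left_of_integrable
    (μ := (volume : Measure (Fin n → ℝ))) (f := fun _ => (1 : ℝ)) (f' := fun _ => (0 : ℝ))
    (g := u) (g' := fun x => fderiv ℝ u x w) (v := w) (B := ContinuousLinearMap.mul ℝ ℝ)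
    (by simp) (by simpa using h1.integrable_of_hasCompactSupport h2)
    (by simpa using hu.continuous.integrable_of_hasCompactSupport hc)
    (fun x _ => by simpa using (hasFDerivAt_const (1 : ℝ) x).hasLineDerivAt w)
    (fun x _ => (hu.differentiable (by simp) x).hasFDerivAt.hasLineDerivAt w)
  simpa using key

/-- the degree integrals of two maps which agree outside a compact set are equal -/
theorem degree_integral_eq {a b : (Fin n → ℝ) → (Fin n → ℝ)} (ha : ContDiff ℝ ∞ a)
    (hb : ContDiff ℝ ∞ b) {K : Set (Fin n → ℝ)} (hK : IsCompact K)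
    (hab : ∀ x ∉ K, a x = b x) {H : (Fin n → ℝ) → ℝ} (hH : ContDiff ℝ ∞ H) (v : Fin n → ℝ) :
    ∫ x, (jd a x * fderiv ℝ H (a x) v - jd b x * fderiv ℝ H (b x) v) = 0 := by
  have hKc : IsClosed K := hK.isClosed
  have hD : ∀ x ∉ K, fderiv ℝ a x = fderiv ℝ b x := by
    intro x hx
    have : a =ᶠ[nhds x] b := by
      filter_upwards [hKc.isOpen_compl.mem_nhds hx] with y hy
      exact hab y hy
    exact this.fderiv_eq
  have hcof : ∀ i, ∀ x ∉ K, cof a v i x = cof b v i x := by
    intro i x hx
    unfold cof cl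
    rw [hD x hx]
  set U : Fin n → (Fin n → ℝ) → ℝ :=
    fun i y => H (a y) * cof a v i y - H (b y) * cof b v i y with hU
  have hUs : ∀ i, ContDiff ℝ ∞ (U i) := fun i =>
    ((hH.comp ha).mul (contDiff_cof ha v i)).sub ((hH.comp hb).mul (contDiff_cof hb v i))
  have hUc : ∀ i, HasCompactSupport (U i) := fun i => by
    refine HasCompactSupport.intro hK fun x hx => ?_
    simp only [hU]
    rw [hab x hx, hcof i x hx, sub_self]
  have e : (fun x => jd a x * fderiv ℝ H (a x) v - jd b x * fderiv ℝ H (b x) v)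
      = fun x => ∑ i, fderiv ℝ (U i) x (Pi.single i 1) := by
    funext x
    rw [← div_eq ha hH, ← div_eq hb hH, ← Finset.sum_sub_distrib]
    refine Finset.sum_congr rfl fun i _ => ?_
    have h1 : DifferentiableAt ℝ (fun y => H (a y) * cof a v i y) x :=
      ((hH.comp ha).mul (contDiff_cof ha v i)).differentiable (by simp) x
    have h2 : DifferentiableAt ℝ (fun y => H (b y) * cof b v i y) x :=
      ((hH.comp hb).mul (contDiff_cof hb v i)).differentiable (by simp) x
    simp only [hU]
    rw [fderiv_fun_sub h1 h2]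
    rfl
  rw [e, integral_finsetSum]
  · exact Finset.sum_eq_zero fun i _ => integral_fderiv_zero (hUs i) (hUc i) _
  · intro i _
    have h1 : Continuous (fun x => fderiv ℝ (U i) x (Pi.single i 1)) :=
      (((hUs i).continuous_fderiv (by simp)).clm_apply continuous_const)
    refine h1.integrable_of_hasCompactSupport ?_
    refine ((hUc i).fderiv (𝕜 := ℝ)).mono' (fun x hx => ?_)
    apply subset_tsupport
    intro h0
    apply hx
    simp [h0]

end Vale.Agent.P205.TOP
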