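import Mathlib

/-!
P205, block TOP: compactly supported almost primitive in the first variable.
-/

noncomputable section

open scoped ContDiff Topology Convolution
open MeasureTheory Set

namespace Vale.Agent.P205.TOP

variable {E : Type*} [NormedAddCommGroup E] [NormedSpace ℝ E] [CompleteSpace E]

/-- the kernel -/
def kerL (L : ℝ) (t : ℝ) : ℝ := (Icc (0 : ℝ) L).indicator (fun t => 1 - t / L) t

theorem kerL_locInt (L : ℝ) : LocallyIntegrable (kerL L) := by
  have h : IntegrableOn (fun t : ℝ => 1 - t / L) (Icc 0 L) :=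
    (by fun_prop : Continuous fun t : ℝ => 1 - t / L).continuousOn.integrableOn_compact
      isCompact_Icc
  exact (h.integrable_indicator measurableSet_Icc).locallyIntegrable

/-- almost primitive -/
def primL (L : ℝ) (u : ℝ × ℝ → E) (z : ℝ × ℝ) : E :=
  (kerL L ⋆[ContinuousLinearMap.lsmul ℝ ℝ, volume] fun x => u (x, z.2)) z.1

theorem primL_eq {L : ℝ} (hL : 0 ≤ L) (u : ℝ × ℝ → E) (z : ℝ × ℝ) :
    primL L u z = ∫ t in (0 : ℝ)..L, (1 - t / L) • u (z.1 - t, z.2) := by
  unfold primL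
  rw [convolution_def, intervalIntegral.integral_of_le hL, ← integral_Icc_eq_integral_Ioc,
    ← integral_indicator measurableSet_Icc]
  congr 1
  funext t
  by_cases ht : t ∈ Icc (0 : ℝ) L
  · simp only [kerL, ht, indicator_of_mem, ContinuousLinearMap.lsmul_apply]
  · simp only [kerL, ht, indicator_of_notMem, not_false_eq_true, ContinuousLinearMap.lsmul_apply,
      zero_smul]

theorem primL_smooth (L : ℝ) {u : ℝ × ℝ → E} (hu : ContDiff ℝ ∞ u)
    (hs : ∀ z, 1 ≤ ‖z‖ → u z = 0) : ContDiff ℝ ∞ (primL L u) := by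
  have h := contDiffOn_convolution_right_with_param (𝕜 := ℝ) (n := ⊤) (μ := volume)
    (ContinuousLinearMap.lsmul ℝ ℝ) (f := kerL L) (g := fun (y x : ℝ) => u (x, y))
    (s := univ) (k := Icc (-1 : ℝ) 1) isOpen_univ isCompact_Icc
    (by
      intro y x _ hx
      refine hs _ ?_
      rw [Prod.norm_mk]
      refine le_max_of_le_left ?_
      rw [Real.norm_eq_abs]
      by_contra h
      exact hx (abs_le.1 (not_le.1 h).le))
    (kerL_locInt L)
    (by
      have : (↿fun (y x : ℝ) => u (x, y)) = fun q : ℝ × ℝ => u (q.2, q.1) := rfl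
      rw [this]
      exact (hu.comp (contDiff_snd.prodMk contDiff_fst)).contDiffOn)
  rw [univ_prod_univ, contDiffOn_univ] at h
  exact h.comp (contDiff_snd.prodMk contDiff_fst)

theorem norm_line_le {u : ℝ × ℝ → E} (hu : Continuous u) (hs : ∀ z, 1 ≤ ‖z‖ → u z = 0)
    {C : ℝ} (hC : ∀ z, ‖u z‖ ≤ C) (a b y : ℝ) (hab : a ≤ b) :
    ‖∫ t in a..b, u (t, y)‖ ≤ 2 * C := by
  have hC0 : 0 ≤ C := (norm_nonneg _).trans (hC 0)
  refine (intervalIntegral.norm_integral_le_integral_norm hab).trans ?_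
  rw [intervalIntegral.integral_of_le hab]
  have h1 : ∫ t in Ioc a b, ‖u (t, y)‖ ≤ ∫ t, ‖u (t, y)‖ := by
    refine setIntegral_le_integral ?_ (Filter.Eventually.of_forall fun t => norm_nonneg _)
    refine Continuous.integrable_of_hasCompactSupport (by fun_prop) ?_
    refine HasCompactSupport.of_support_subset_isCompact (isCompact_Icc (a := (-1 : ℝ)) (b := 1)) ?_
    intro t ht
    by_contra h
    refine ht ?_
    show ‖u (t, y)‖ = 0
    rw [hs, norm_zero]
    rw [Prod.norm_mk, Real.norm_eq_abs]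
    refine le_max_of_le_left ?_
    by_contra h'
    exact h (abs_le.1 (not_le.1 h').le)
  refine h1.trans ?_
  have h2 : ∫ t, ‖u (t, y)‖ ≤ ∫ t, (Icc (-1 : ℝ) 1).indicator (fun _ => C) t := by
    refine integral_mono_of_nonneg (Filter.Eventually.of_forall fun t => norm_nonneg _) ?_
      (Filter.Eventually.of_forall fun t => ?_)
    · rw [integrable_indicator_iff measurableSet_Icc]
      exact integrableOn_const (by simp)
    · by_cases ht : t ∈ Icc (-1 : ℝ) 1
      · simp only [indicator_of_mem ht]; exact hC _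
      · simp only [indicator_of_notMem ht]
        rw [hs, norm_zero]
        rw [Prod.norm_mk, Real.norm_eq_abs]
        refine le_max_of_le_left ?_
        by_contra h'
        exact ht (abs_le.1 (not_le.1 h').le)
  refine h2.trans ?_
  rw [integral_indicator measurableSet_Icc]
  simp
  norm_num

theorem primL_eq' {L : ℝ} (hL : 0 < L) {u : ℝ × ℝ → E} (hu : Continuous u) (z : ℝ × ℝ) :
    primL L u z = (1 - z.1 / L) • ((∫ s in (0 : ℝ)..z.1, u (s, z.2))
        - ∫ s in (0 : ℝ)..(z.1 - L), u (s, z.2))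
      + L⁻¹ • ((∫ s in (0 : ℝ)..z.1, s • u (s, z.2)) - ∫ s in (0 : ℝ)..(z.1 - L), s • u (s, z.2))
    := by
  have i1 : ∀ a b, IntervalIntegrable (fun s : ℝ => u (s, z.2)) volume a b := fun a b =>
    (by fun_prop : Continuous fun s : ℝ => u (s, z.2)).intervalIntegrable _ _
  have i2 : ∀ a b, IntervalIntegrable (fun s : ℝ => s • u (s, z.2)) volume a b := fun a b =>
    (by fun_prop : Continuous fun s : ℝ => s • u (s, z.2)).intervalIntegrable _ _
  rw [primL_eq hL.le]
  have h := intervalIntegral.integral_comp_sub_left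
    (fun s : ℝ => (1 - (z.1 - s) / L) • u (s, z.2)) z.1 (a := 0) (b := L)
  simp only [sub_sub_cancel, sub_zero] at h
  rw [h, intervalIntegral.integral_interval_sub_left (i1 _ _) (i1 _ _),
    intervalIntegral.integral_interval_sub_left (i2 _ _) (i2 _ _),
    ← intervalIntegral.integral_smul, ← intervalIntegral.integral_smul]
  have h3 := intervalIntegral.integral_add (μ := volume) (a := z.1 - L) (b := z.1)
    (f := fun s : ℝ => (1 - z.1 / L) • u (s, z.2)) (g := fun s : ℝ => L⁻¹ • s • u (s, z.2))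
    ((by fun_prop : Continuous fun s : ℝ => (1 - z.1 / L) • u (s, z.2)).intervalIntegrable _ _)
    ((by fun_prop : Continuous fun s : ℝ => L⁻¹ • s • u (s, z.2)).intervalIntegrable _ _)
  rw [← h3]
  congr 1
  funext s
  rw [smul_smul, ← add_smul]
  congr 1
  field_simp
  ring

theorem primL_deriv {L : ℝ} (hL : 0 < L) {u : ℝ × ℝ → E} (hu : ContDiff ℝ ∞ u)
    (hs : ∀ z, 1 ≤ ‖z‖ → u z = 0) (z : ℝ × ℝ) :
    fderiv ℝ (primL L u) z (1, 0) = u z - L⁻¹ • ∫ s in (z.1 - L)..z.1, u (s, z.2) := by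
  obtain ⟨x, y⟩ := z
  have hc : Continuous u := hu.continuous
  have c1 : Continuous fun s : ℝ => u (s, y) := by fun_prop
  have c2 : Continuous fun s : ℝ => s • u (s, y) := by fun_prop
  -- derivative of the line restriction
  have d1 : ∀ x : ℝ, HasDerivAt (fun x => ∫ s in (0 : ℝ)..x, u (s, y)) (u (x, y)) x := fun x =>
    intervalIntegral.integral_hasDerivAt_right (c1.intervalIntegrable _ _)
      (c1.stronglyMeasurableAtFilter _ _) c1.continuousAt
  have d2 : ∀ x : ℝ, HasDerivAt (fun x => ∫ s in (0 : ℝ)..x, s • u (s, y)) (x • u (x, y)) x :=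
    fun x => intervalIntegral.integral_hasDerivAt_right (c2.intervalIntegrable _ _)
      (c2.stronglyMeasurableAtFilter _ _) c2.continuousAt
  have dL : HasDerivAt (fun x : ℝ => x - L) 1 x := (hasDerivAt_id x).sub_const L
  have e1' : HasDerivAt (fun x => ∫ s in (0 : ℝ)..(x - L), u (s, y)) ((1 : ℝ) • u (x - L, y)) x :=
    HasDerivAt.scomp (g₁ := fun x => ∫ s in (0 : ℝ)..x, u (s, y)) x (d1 (x - L)) dL
  have e2' : HasDerivAt (fun x => ∫ s in (0 : ℝ)..(x - L), s • u (s, y))
      ((1 : ℝ) • ((x - L) • u (x - L, y))) x :=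
    HasDerivAt.scomp (g₁ := fun x => ∫ s in (0 : ℝ)..x, s • u (s, y)) x (d2 (x - L)) dL
  have e1 : HasDerivAt (fun x => (∫ s in (0 : ℝ)..x, u (s, y))
      - ∫ s in (0 : ℝ)..(x - L), u (s, y)) (u (x, y) - (1 : ℝ) • u (x - L, y)) x :=
    (d1 x).sub e1'
  have e2 : HasDerivAt (fun x => (∫ s in (0 : ℝ)..x, s • u (s, y))
      - ∫ s in (0 : ℝ)..(x - L), s • u (s, y))
      (x • u (x, y) - (1 : ℝ) • ((x - L) • u (x - L, y))) x :=
    (d2 x).sub e2'
  have e3 : HasDerivAt (fun x : ℝ => 1 - x / L) (-(1 / L)) x := by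
    simpa using ((hasDerivAt_id x).div_const L).const_sub 1
  have e4 := (e3.smul e1).add (e2.const_smul L⁻¹)
  have e5 : HasDerivAt (fun x => primL L u (x, y)) (fderiv ℝ (primL L u) (x, y) (1, 0)) x := by
    have h1 : HasFDerivAt (primL L u) (fderiv ℝ (primL L u) (x, y)) (x, y) :=
      (((primL_smooth L hu hs).differentiable (by simp)) _).hasFDerivAt
    have h2 : HasDerivAt (fun x : ℝ => (x, y)) ((1 : ℝ), (0 : ℝ)) x :=
      (hasDerivAt_id x).prodMk (hasDerivAt_const x y)
    exact h1.comp_hasDerivAt x h2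
  have e6 : (fun x => primL L u (x, y)) = fun x : ℝ => (1 - x / L) •
      ((∫ s in (0 : ℝ)..x, u (s, y)) - ∫ s in (0 : ℝ)..(x - L), u (s, y))
      + L⁻¹ • ((∫ s in (0 : ℝ)..x, s • u (s, y)) - ∫ s in (0 : ℝ)..(x - L), s • u (s, y)) := by
    funext x
    exact primL_eq' hL hc (x, y)
  rw [e6] at e5
  have e7 := e5.unique e4
  rw [e7]
  show _ = u (x, y) - L⁻¹ • ∫ s in (x - L)..x, u (s, y)
  rw [← intervalIntegral.integral_interval_sub_left (c1.intervalIntegrable 0 x)
    (c1.intervalIntegrable 0 (x - L))]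
  generalize (∫ s in (0 : ℝ)..x, u (s, y)) - ∫ s in (0 : ℝ)..(x - L), u (s, y) = A
  have h8 : L⁻¹ * L = 1 := inv_mul_cancel₀ hL.ne'
  have h9 : x / L = L⁻¹ * x := by field_simp
  have h10 : L⁻¹ • (x • u (x, y) - (1 : ℝ) • ((x - L) • u (x - L, y))) =
      (L⁻¹ * x) • u (x, y) - (L⁻¹ * x - 1) • u (x - L, y) := by
    rw [one_smul, smul_sub, smul_smul, smul_smul, mul_sub, h8]
  rw [h10, h9, one_div]
  module

/-- **compactly supported almost primitive in the first variable** -/
theorem prim {u : ℝ × ℝ → E} (hu : ContDiff ℝ ∞ u) (hs : ∀ z, 1 ≤ ‖z‖ → u z = 0) {δ : ℝ}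
    (hδ : 0 < δ) : ∃ (R : ℝ) (G : ℝ × ℝ → E), 0 < R ∧ ContDiff ℝ ∞ G ∧
      (∀ z, R ≤ ‖z‖ → G z = 0) ∧ ∀ z, ‖fderiv ℝ G z (1, 0) - u z‖ ≤ δ := by
  have hcs : HasCompactSupport u := by
    refine HasCompactSupport.of_support_subset_isCompact (isCompact_closedBall (0 : ℝ × ℝ) 1) ?_
    intro z hz
    rw [mem_closedBall_zero_iff]
    by_contra h
    exact hz (hs z (not_le.1 h).le)
  obtain ⟨C, hC⟩ := hu.continuous.bounded_above_of_compact_support hcs
  have hC0 : 0 ≤ C := (norm_nonneg _).trans (hC 0)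
  obtain ⟨L, hL, hL2⟩ : ∃ L : ℝ, 0 < L ∧ L⁻¹ * (2 * C) ≤ δ := by
    refine ⟨(2 * C + 1) / δ, by positivity, ?_⟩
    rw [inv_div, div_mul_eq_mul_div, div_le_iff₀ (by positivity)]
    nlinarith
  refine ⟨L + 1, primL L u, by positivity, primL_smooth L hu hs, fun z hz => ?_, fun z => ?_⟩
  · rw [primL_eq hL.le, intervalIntegral.integral_congr (g := fun _ => (0 : E)),
      intervalIntegral.integral_zero]
    intro t ht
    rw [uIcc_of_le hL.le] at ht
    show (1 - t / L) • u (z.1 - t, z.2) = 0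
    rw [hs, smul_zero]
    rw [Prod.norm_def] at hz
    rw [Prod.norm_mk]
    rcases le_max_iff.1 hz with h | h
    · refine le_max_of_le_left ?_
      have h1 : ‖z.1‖ ≤ ‖z.1 - t‖ + ‖t‖ := by
        have := norm_add_le (z.1 - t) t
        rwa [sub_add_cancel] at this
      have h2 : ‖t‖ ≤ L := by rw [Real.norm_eq_abs, abs_of_nonneg ht.1]; exact ht.2
      linarith
    · refine le_max_of_le_right ?_
      linarith
  · rw [primL_deriv hL hu hs, sub_sub_cancel_left, norm_neg, norm_smul, norm_inv,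
      Real.norm_eq_abs, abs_of_pos hL]
    refine le_trans ?_ hL2
    exact mul_le_mul_of_nonneg_left
      (norm_line_le hu.continuous hs hC _ _ _ (by linarith)) (by positivity)

end Vale.Agent.P205.TOP
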