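import Vale.Agent.P205.TOP.Chart

/-!
Parity of the number of zeros on a closed manifold: the chart in coordinates.
-/

open MeasureTheory Topology Function Manifold

open scoped ContDiff

noncomputable section

namespace Vale.Agent.P205.TOP

variable {n : ℕ} {E : Type*} [NormedAddCommGroup E] [NormedSpace ℝ E] {H : Type*}
  [TopologicalSpace H] {I : ModelWithCorners ℝ E H} {N : Type*} [TopologicalSpace N]
  [ChartedSpace H N]

/-- the chart -/
def cψ (I : ModelWithCorners ℝ E H) (L : E ≃L[ℝ] (Fin (n + 1) → ℝ)) (x0 : N) (x : N) :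
    Fin (n + 1) → ℝ := L (extChartAt I x0 x)

/-- its inverse -/
def cψi (I : ModelWithCorners ℝ E H) (L : E ≃L[ℝ] (Fin (n + 1) → ℝ)) (x0 : N)
    (y : Fin (n + 1) → ℝ) : N := (extChartAt I x0).symm (L.symm y)

/-- its image -/
def cO (I : ModelWithCorners ℝ E H) (L : E ≃L[ℝ] (Fin (n + 1) → ℝ)) (x0 : N) :
    Set (Fin (n + 1) → ℝ) := L.symm ⁻¹' (extChartAt I x0).target

variable {L : E ≃L[ℝ] (Fin (n + 1) → ℝ)} {x0 : N}

theorem isOpen_cO [I.Boundaryless] : IsOpen (cO I L x0) :=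
  (isOpen_extChartAt_target x0).preimage L.symm.continuous

theorem cψ_mem {x : N} (hx : x ∈ (extChartAt I x0).source) : cψ I L x0 x ∈ cO I L x0 := by
  unfold cψ cO
  rw [Set.mem_preimage, L.symm_apply_apply]
  exact (extChartAt I x0).map_source hx

theorem cψi_mem {y : Fin (n + 1) → ℝ} (hy : y ∈ cO I L x0) :
    cψi I L x0 y ∈ (extChartAt I x0).source := (extChartAt I x0).map_target hy

theorem cψi_cψ {x : N} (hx : x ∈ (extChartAt I x0).source) : cψi I L x0 (cψ I L x0 x) = x := by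
  unfold cψ cψi
  rw [L.symm_apply_apply]
  exact (extChartAt I x0).left_inv hx

theorem cψ_cψi {y : Fin (n + 1) → ℝ} (hy : y ∈ cO I L x0) : cψ I L x0 (cψi I L x0 y) = y := by
  unfold cψ cψi
  rw [(extChartAt I x0).right_inv hy, L.apply_symm_apply]

theorem continuousOn_cψ : ContinuousOn (cψ I L x0) (extChartAt I x0).source :=
  L.continuous.comp_continuousOn (continuousOn_extChartAt x0)

theorem contDiffOn_comp_cψi [IsManifold I ∞ N] [I.Boundaryless] {W : Type*}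
    [NormedAddCommGroup W] [NormedSpace ℝ W] {f : N → W} (hf : ContMDiff I 𝓘(ℝ, W) ∞ f) :
    ContDiffOn ℝ ∞ (f ∘ cψi I L x0) (cO I L x0) := by
  have h1 : ContMDiffOn 𝓘(ℝ, E) 𝓘(ℝ, W) ∞ (f ∘ (extChartAt I x0).symm)
      (extChartAt I x0).target :=
    hf.comp_contMDiffOn (contMDiffOn_extChartAt_symm x0)
  have h2 : ContDiffOn ℝ ∞ (f ∘ (extChartAt I x0).symm) (extChartAt I x0).target :=
    contMDiffOn_iff_contDiffOn.1 h1
  exact h2.comp L.symm.contDiff.contDiffOn fun y hy => hy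

/-- regularity in the chart -/
theorem inj_iff_det [IsManifold I ∞ N] [I.Boundaryless] {f : N → (Fin (n + 1) → ℝ)}
    (hf : ContMDiff I 𝓘(ℝ, Fin (n + 1) → ℝ) ∞ f) {x : N}
    (hx : x ∈ (extChartAt I x0).source) :
    Function.Injective (mfderiv I 𝓘(ℝ, Fin (n + 1) → ℝ) f x) ↔
      (fderiv ℝ (f ∘ cψi I L x0) (cψ I L x0 x)).det ≠ 0 := by
  set F := f ∘ cψi I L x0 with hF
  have hO : IsOpen (cO I L x0) := isOpen_cO
  have hFd : DifferentiableAt ℝ F (cψ I L x0 x) :=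
    ((contDiffOn_comp_cψi (L := L) (x0 := x0) hf).contDiffAt
      (hO.mem_nhds (cψ_mem hx))).differentiableAt (by simp)
  have hxs : x ∈ (chartAt H x0).source := by rwa [extChartAt_source] at hx
  have he : MDifferentiableAt I 𝓘(ℝ, E) (extChartAt I x0) x :=
    (contMDiffAt_extChartAt' (n := ∞) hxs).mdifferentiableAt (by simp)
  have hL : MDifferentiableAt 𝓘(ℝ, E) 𝓘(ℝ, Fin (n + 1) → ℝ) L (extChartAt I x0 x) :=
    L.differentiableAt.mdifferentiableAt
  have hFm : MDifferentiableAt 𝓘(ℝ, Fin (n + 1) → ℝ) 𝓘(ℝ, Fin (n + 1) → ℝ) F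
      (cψ I L x0 x) := hFd.mdifferentiableAt
  have h1 : f =ᶠ[𝓝 x] F ∘ (L ∘ extChartAt I x0) := by
    filter_upwards [(isOpen_extChartAt_source (I := I) x0).mem_nhds hx] with y hy
    show f y = f (cψi I L x0 (cψ I L x0 y))
    rw [cψi_cψ hy]
  have hcomp : HasMFDerivAt I 𝓘(ℝ, Fin (n + 1) → ℝ) f x
      ((fderiv ℝ F (cψ I L x0 x)).comp ((L : E →L[ℝ] (Fin (n + 1) → ℝ)).comp
        (mfderiv I 𝓘(ℝ, E) (extChartAt I x0) x))) := by
    have a1 := he.hasMFDerivAt
    have a2 : HasMFDerivAt 𝓘(ℝ, E) 𝓘(ℝ, Fin (n + 1) → ℝ) L (extChartAt I x0 x)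
        (L : E →L[ℝ] (Fin (n + 1) → ℝ)) := L.hasFDerivAt.hasMFDerivAt
    have a3 : HasMFDerivAt 𝓘(ℝ, Fin (n + 1) → ℝ) 𝓘(ℝ, Fin (n + 1) → ℝ) F (cψ I L x0 x)
        (fderiv ℝ F (cψ I L x0 x)) := hFd.hasFDerivAt.hasMFDerivAt
    have a4 := HasMFDerivAt.comp x a2 a1
    have a5 := HasMFDerivAt.comp x a3 a4
    exact a5.congr_of_eventuallyEq h1
  obtain ⟨e, he'⟩ := isInvertible_mfderiv_extChartAt (I := I) hx
  have h2 : ∀ v : TangentSpace I x, mfderiv I 𝓘(ℝ, Fin (n + 1) → ℝ) f x v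
      = fderiv ℝ F (cψ I L x0 x) (L (e v)) := by
    intro v
    rw [hcomp.mfderiv, ← he']
    rfl
  have h4 : Function.Injective (mfderiv I 𝓘(ℝ, Fin (n + 1) → ℝ) f x)
      ↔ Function.Injective (fderiv ℝ F (cψ I L x0 x)) := by
    constructor
    · intro h w w' hw
      have h5 : e.symm (L.symm w) = e.symm (L.symm w') := by
        refine h ?_
        rw [h2, h2]
        have h6 : ∀ u : Fin (n + 1) → ℝ, L (e (e.symm (L.symm u))) = u := by
          intro u
          exact (congrArg L (e.apply_symm_apply _)).trans (L.apply_symm_apply u)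
        rw [h6, h6]
        exact hw
      exact L.symm.injective (e.symm.injective h5)
    · intro h v v' hv
      rw [h2, h2] at hv
      exact e.injective (L.injective (h hv))
  refine h4.trans ?_
  have h6 : (fderiv ℝ F (cψ I L x0 x)).det
      = LinearMap.det (fderiv ℝ F (cψ I L x0 x)).toLinearMap := rfl
  rw [h6]
  have h7 := LinearMap.isUnit_iff_ker_eq_bot (fderiv ℝ F (cψ I L x0 x)).toLinearMap
  have h8 := LinearMap.isUnit_iff_isUnit_det (fderiv ℝ F (cψ I L x0 x)).toLinearMap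
  rw [← isUnit_iff_ne_zero, ← h8, h7, LinearMap.ker_eq_bot]
  rfl

end Vale.Agent.P205.TOP
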